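import Vale.Agent.P146.H295.ConcB

set_option linter.all false

/-!
Concentration of the overlap at a good level of a bundle of levels.

`S` is a system with `K` levels and a white field `s_l` on every level.  If the deficit Gram matrix
`gg` of the normalised fields is positive semidefinite (planted Brascamp-Lieb) and its diagonal is
at most `γ` on the bundle `a ≤ l ≤ b`, and `p_l ≥ π` there, then
`∑_{a ≤ l < b} E (R^(l) - ρ_l)² ≤ 5 Θ_b + 20 (b - a) γ / π²`, `Θ_b = E (R^(b))²`.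
-/

open MeasureTheory ProbabilityTheory

namespace Vale.Agent.P146.H295

open Vale.Agent.P157.Lv Vale.Agent.P157.Lv.Sy
open Vale.Agent.P157.Lv.Fld (uu nh_uu mg_eq eg_mg dep_mg sum_mg_sq Ex_mg_mul)

variable {ι X : Type} [Fintype ι] [DecidableEq ι] [Fintype X] [DecidableEq X] [Nonempty X]
  {S : Sy ι X} {D : ι → (ι → ℝ) → X → ℝ} {N : ℕ}
  {φ : X → Fin N → ℝ} {zc : ℕ → Fin N → ι} {s : ℕ → ℝ} {P : ℕ → Prop}

/-- The deficit Gram matrix of the fields of the levels in `P` is positive semidefinite. -/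
def GP (S : Sy ι X) (φ : X → Fin N → ℝ) (zc : ℕ → Fin N → ι) (s : ℕ → ℝ) (P : ℕ → Prop) : Prop :=
  ∀ c : ℕ → ℝ, (∀ p, ¬ P p → c p = 0) →
    0 ≤ ∑ p ∈ Finset.range (S.K + 1), ∑ q ∈ Finset.range (S.K + 1), c p * c q * gg S φ zc s p q

lemma sum_single {n i : ℕ} (hi : i < n) (f : ℕ → ℝ) (a : ℝ) :
    ∑ p ∈ Finset.range n, (if p = i then a else 0) * f p = a * f i := by
  rw [Finset.sum_eq_single i]
  · rw [if_pos rfl]
  · intro p _ hp
    rw [if_neg hp, zero_mul]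
  · intro h; exact absurd (Finset.mem_range.mpr hi) h

/-- the form on three levels -/
lemma GP.three (h : GP S φ zc s P) {i j k : ℕ} (hi : i ≤ S.K) (hj : j ≤ S.K) (hk : k ≤ S.K)
    (Pi : P i) (Pj : P j) (Pk : P k) (α β δ : ℝ) :
    0 ≤ α ^ 2 * gg S φ zc s i i + β ^ 2 * gg S φ zc s j j + δ ^ 2 * gg S φ zc s k k +
      2 * (α * β * gg S φ zc s i j) + 2 * (α * δ * gg S φ zc s i k) +
      2 * (β * δ * gg S φ zc s j k) := by
  set c : ℕ → ℝ := fun p => (if p = i then α else 0) + (if p = j then β else 0) +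
    (if p = k then δ else 0) with hc
  have hn : ∀ {m : ℕ}, m ≤ S.K → m < S.K + 1 := fun h => by omega
  have e0 : ∀ f : ℕ → ℝ, ∑ p ∈ Finset.range (S.K + 1), c p * f p = α * f i + β * f j + δ * f k := by
    intro f
    simp only [hc, add_mul]
    rw [Finset.sum_add_distrib, Finset.sum_add_distrib, sum_single (hn hi), sum_single (hn hj),
      sum_single (hn hk)]
  have e1 : ∑ p ∈ Finset.range (S.K + 1), ∑ q ∈ Finset.range (S.K + 1),
      c p * c q * gg S φ zc s p q = ∑ p ∈ Finset.range (S.K + 1), c p *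
        (∑ q ∈ Finset.range (S.K + 1), c q * gg S φ zc s p q) := by
    refine Finset.sum_congr rfl fun p _ => ?_
    rw [Finset.mul_sum]
    refine Finset.sum_congr rfl fun q _ => ?_
    ring
  have h1 := h c fun p hp => by
    have hi' : p ≠ i := fun h => hp (h ▸ Pi)
    have hj' : p ≠ j := fun h => hp (h ▸ Pj)
    have hk' : p ≠ k := fun h => hp (h ▸ Pk)
    simp only [hc, if_neg hi', if_neg hj', if_neg hk']
    norm_num
  rw [e1, e0 (fun p => ∑ q ∈ Finset.range (S.K + 1), c q * gg S φ zc s p q)] at h1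
  simp only [e0] at h1
  rw [gg_comm (S := S) (φ := φ) (zc := zc) (s := s) j i,
    gg_comm (S := S) (φ := φ) (zc := zc) (s := s) k i,
    gg_comm (S := S) (φ := φ) (zc := zc) (s := s) k j] at h1
  linarith

lemma Cv_self_nonneg (F : FldP S D φ zc s P) {f : (ι → ℝ) → X → ℝ} (hf : Nh f) :
    Cv S f f = S.Ex (fun z x => (f z x - S.Ex f) ^ 2) := by
  have hS := F.hreg
  have e1 : (fun z x => (f z x - S.Ex f) ^ 2) =
      fun z x => (f z x * f z x - 2 * S.Ex f * f z x) + S.Ex f ^ 2 := by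
    funext z x
    ring
  rw [e1, hS.Ex_add (Nh.sub (Nh.mul hf hf) (Nh.const_mul _ hf)) (nh_c _),
    hS.Ex_sub (Nh.mul hf hf) (Nh.const_mul _ hf), Sy.Ex_const_mul, hS.Ex_const, Cv]
  ring

lemma Cv_nonneg (F : FldP S D φ zc s P) {f : (ι → ℝ) → X → ℝ} (hf : Nh f) : 0 ≤ Cv S f f := by
  rw [Cv_self_nonneg F hf, ← F.hreg.Ex_const 0]
  exact F.hreg.Ex_mono (nh_c 0) (Nh.pow (Nh.sub hf (nh_c _)) 2) fun z x => sq_nonneg _

/-- variance of a difference -/
lemma Cv_diff (F : FldP S D φ zc s P) {l : ℕ} (hl : l < S.K) :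
    S.Ex (fun z x => (uu S φ (l + 1) z x - uu S φ l z x) ^ 2) =
      Cv S (uu S φ l) (uu S φ l) + Cv S (uu S φ (l + 1)) (uu S φ (l + 1)) +
        (S.Rl φ (l + 1) - S.Rl φ l) ^ 2 - 2 * Cv S (uu S φ l) (uu S φ (l + 1)) := by
  have hS := F.hreg
  have n0 := nh_uu (φ := φ) hS hl.le
  have n1 := nh_uu (φ := φ) hS (show l + 1 ≤ S.K from hl)
  have e1 : (fun z x => (uu S φ (l + 1) z x - uu S φ l z x) ^ 2) =
      fun z x => (uu S φ (l + 1) z x * uu S φ (l + 1) z x -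
        2 * (uu S φ l z x * uu S φ (l + 1) z x)) + uu S φ l z x * uu S φ l z x := by
    funext z x
    ring
  rw [e1, hS.Ex_add (Nh.sub (Nh.mul n1 n1) (Nh.const_mul _ (Nh.mul n0 n1))) (Nh.mul n0 n0),
    hS.Ex_sub (Nh.mul n1 n1) (Nh.const_mul _ (Nh.mul n0 n1)), Sy.Ex_const_mul]
  simp only [Cv]
  rw [F.Ex_uu hl.le, F.Ex_uu (show l + 1 ≤ S.K from hl)]
  ring

lemma sum_p (S : Sy ι X) (hS : S.Reg) {l : ℕ} (hl : l ≤ S.K) :
    ∑ i ∈ Finset.Ico (l + 1) (S.K + 1), S.p i = 1 - S.m (l + 1) := by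
  have h1 : ∀ n, l + 1 ≤ n → ∑ i ∈ Finset.Ico (l + 1) n, S.p i = S.m n - S.m (l + 1) := by
    intro n hn
    induction n, hn using Nat.le_induction with
    | base => simp
    | succ n hn ih =>
      rw [Finset.sum_Ico_succ_top hn, ih, Sy.p]
      ring
  rw [h1 _ (by omega), hS.mK]

/-- the variance of the overlap through the variance of `u_l` -/
theorem pair_var (F : FldP S D φ zc s P) (hinj : ∀ p ≤ S.K, P p → Function.Injective (zc p))
    (hs : ∀ p ≤ S.K, P p → 0 < s p) {l : ℕ} (hl : l < S.K) (Pl : P l) (Pl1 : P (l + 1))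
    {π γ : ℝ} (hπ : 0 < π) (hp : π ≤ S.p l)
    (hγ : 0 ≤ γ) (hg : ge S φ zc s l l ≤ 4 * γ) :
    S.pairEx l (fun x x' => (Rov φ x x' - S.Rl φ l) ^ 2) ≤
      2 * Cv S (uu S φ l) (uu S φ l) + 4 * γ / π ^ 2 := by
  have hS := F.hreg
  have hlK := hl.le
  set R := S.Rl φ l with hR
  set V := Cv S (uu S φ l) (uu S φ l) with hV
  have hV0 : 0 ≤ V := Cv_nonneg F (nh_uu hS hlK)
  have hexp : S.pairEx l (fun x x' => (Rov φ x x' - R) ^ 2) = Th S φ l - R * R := by
    have e1 : (fun x x' => (Rov φ x x' - R) ^ 2) =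
        fun x x' => Rov φ x x' ^ 2 + ((-(2 * R)) * Rov φ x x' + R * R) := by
      funext x x'
      ring
    rw [e1, hS.pairEx_add hlK (fun x x' => Rov φ x x' ^ 2)
      (fun x x' => (-(2 * R)) * Rov φ x x' + R * R),
      hS.pairEx_add hlK (fun x x' => (-(2 * R)) * Rov φ x x') (fun _ _ => R * R),
      hS.pairEx_const_mul, hS.pairEx_const hlK]
    have e2 : S.pairEx l (fun x x' => Rov φ x x') = R := (F.Rl_eq_pairEx hlK).symm
    rw [e2, Th]
    ring
  have ht : S.Ex (fun z x => uu S φ l z x ^ 2) = V + R * R := by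
    simp only [hV, Cv]
    rw [F.Ex_uu hlK]
    have e : (fun z x => uu S φ l z x ^ 2) = fun z x => uu S φ l z x * uu S φ l z x := by
      funext z x
      ring
    rw [e]
    ring
  have h1 := ge_self F hinj hs hl Pl Pl1
  rw [ht] at h1
  have hp0 : ∀ i ≤ S.K, 0 ≤ S.p i := fun i hi => by
    rw [Sy.p]
    linarith [hS.mono i hi]
  have h2 : ∑ i ∈ Finset.Ico (l + 1) (S.K + 1), S.p i * sg S φ l i ≤
      Th S φ l * (1 - S.m (l + 1)) := by
    rw [← sum_p S hS hlK, Finset.mul_sum]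
    refine Finset.sum_le_sum fun i hi => ?_
    rw [Finset.mem_Ico] at hi
    rw [mul_comm (Th S φ l)]
    exact mul_le_mul_of_nonneg_left (F.three_le_two (by omega) (by omega)) (hp0 i (by omega))
  have hm0 : 0 ≤ S.m l := by
    rcases Nat.eq_zero_or_pos l with h0 | h0
    · rw [h0, hS.m0]
    · exact (hS.m_pos h0 (by omega)).le
  have hpl : S.p l ≤ S.m (l + 1) := by
    rw [Sy.p]
    linarith only [hm0]
  set m := S.m (l + 1) with hm
  set p := S.p l with hpp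
  have hp1 : 0 < p := lt_of_lt_of_le hπ hp
  have hmp : 0 < m := lt_of_lt_of_le hp1 hpl
  have h3 : m * (Th S φ l - R * R - 2 * V) ≤ 4 * γ / p := by
    rw [le_div_iff₀ hp1]
    have h4 : p * (m * (Th S φ l - R * R - 2 * V)) ≤ ge S φ zc s l l := by
      rw [h1]
      refine mul_le_mul_of_nonneg_left ?_ hp1.le
      nlinarith [mul_le_mul_of_nonneg_right hpl hV0]
    linarith
  rw [hexp]
  have h5 : Th S φ l - R * R - 2 * V ≤ 4 * γ / π ^ 2 := by
    have h6 : 4 * γ / p ≤ 4 * γ / π := div_le_div_of_nonneg_left (by positivity) hπ hp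
    by_cases hx : Th S φ l - R * R - 2 * V ≤ 0
    · exact hx.trans (by positivity)
    · push Not at hx
      have h7 : π * (Th S φ l - R * R - 2 * V) ≤ 4 * γ / π :=
        (mul_le_mul_of_nonneg_right (hp.trans hpl) hx.le).trans (h3.trans h6)
      rw [le_div_iff₀ hπ] at h7
      rw [le_div_iff₀ (by positivity)]
      linarith
  linarith

/-- bound of the form of one difference -/
lemma ge_self_le (hG : GP S φ zc s P) {l : ℕ} (hl : l < S.K) (Pl : P l) (Pl1 : P (l + 1)) {γ : ℝ}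
    (h0 : gg S φ zc s l l ≤ γ) (h1 : gg S φ zc s (l + 1) (l + 1) ≤ γ) :
    ge S φ zc s l l ≤ 4 * γ := by
  have h := hG.three hl.le (show l + 1 ≤ S.K from hl) hl.le Pl Pl1 Pl 1 1 0
  unfold ge
  rw [gg_comm (S := S) (φ := φ) (zc := zc) (s := s) (l + 1) l]
  linarith

/-- Cauchy-Schwarz for neighbouring differences -/
lemma abs_ge_le (hG : GP S φ zc s P) {l : ℕ} (hl : l + 1 < S.K) (Pl : P l) (Pl1 : P (l + 1))
    (Pl2 : P (l + 1 + 1)) {γ : ℝ}
    (h0 : ge S φ zc s l l ≤ 4 * γ) (h1 : ge S φ zc s (l + 1) (l + 1) ≤ 4 * γ) :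
    |ge S φ zc s l (l + 1)| ≤ 4 * γ := by
  have c1 := gg_comm (S := S) (φ := φ) (zc := zc) (s := s) (l + 1) l
  have c2 := gg_comm (S := S) (φ := φ) (zc := zc) (s := s) (l + 1 + 1) (l + 1)
  have a1 := hG.three (show l ≤ S.K by omega) (show l + 1 ≤ S.K by omega)
    (show l + 1 + 1 ≤ S.K by omega) Pl Pl1 Pl2 1 0 (-1)
  have a2 := hG.three (show l ≤ S.K by omega) (show l + 1 ≤ S.K by omega)
    (show l + 1 + 1 ≤ S.K by omega) Pl Pl1 Pl2 1 (-2) 1
  unfold ge at *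
  rw [c1] at h0
  rw [c2] at h1
  rw [abs_le]
  constructor <;> linarith

/-- **Concentration on a bundle of levels, summed form.** -/
theorem conc_sum (F : FldP S D φ zc s P) (hinj : ∀ p ≤ S.K, P p → Function.Injective (zc p))
    (hs : ∀ p ≤ S.K, P p → 0 < s p) (hG : GP S φ zc s P) {a b : ℕ} (hab : a ≤ b) (hb : b < S.K)
    (hP : ∀ l, a ≤ l → l ≤ b + 1 → P l) {π γ : ℝ} (hπ : 0 < π) (hp : ∀ l, a ≤ l → l ≤ b → π ≤ S.p l)
    (hγ : ∀ l, a ≤ l → l ≤ b + 1 → gg S φ zc s l l ≤ γ) :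
    ∑ l ∈ Finset.Ico a b, (S.pairEx l (fun x x' => (Rov φ x x' - S.Rl φ l) ^ 2) +
      2 * (S.Rl φ (l + 1) - S.Rl φ l) ^ 2) ≤
      5 * Th S φ b + 20 * (b - a : ℝ) * γ / π ^ 2 := by
  have hS := F.hreg
  have hγ0 : 0 ≤ γ := by
    have Pa := hP a le_rfl (by omega)
    have h := hG.three (show a ≤ S.K by omega) (show a ≤ S.K by omega)
      (show a ≤ S.K by omega) Pa Pa Pa 1 0 0
    have := hγ a le_rfl (by omega)
    linarith
  have hge : ∀ l, a ≤ l → l ≤ b → ge S φ zc s l l ≤ 4 * γ := fun l h1 h2 =>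
    ge_self_le hG (by omega) (hP l h1 (by omega)) (hP (l + 1) (by omega) (by omega))
      (hγ l h1 (by omega)) (hγ (l + 1) (by omega) (by omega))
  have hC : ∀ l, a ≤ l → l < b → |Cv S (uu S φ l) (uu S φ (l + 1))| ≤ 4 * γ / π ^ 2 := by
    intro l h1 h2
    have P0 := hP l h1 (by omega)
    have P1 := hP (l + 1) (by omega) (by omega)
    have P2 := hP (l + 1 + 1) (by omega) (by omega)
    have h3 := ge_eq F hinj hs (Nat.lt_succ_self l) (show l + 1 < S.K by omega) P0 P1 P1 P2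
    have h4 := abs_ge_le hG (show l + 1 < S.K by omega) P0 P1 P2 (hge l h1 h2.le)
      (hge (l + 1) (by omega) h2)
    rw [show l.succ = l + 1 from rfl] at h3
    rw [h3, abs_neg, abs_mul] at h4
    have p1 := hp l h1 h2.le
    have p2 := hp (l + 1) (by omega) h2
    rw [le_div_iff₀ (by positivity)]
    have h5 : π ^ 2 ≤ |S.p l * S.p (l + 1)| := by
      rw [sq, abs_of_nonneg (mul_nonneg (hπ.le.trans p1) (hπ.le.trans p2))]
      exact mul_le_mul p1 p2 hπ.le (hπ.le.trans p1)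
    have h6 := mul_le_mul_of_nonneg_right h5 (abs_nonneg (Cv S (uu S φ l) (uu S φ (l + 1))))
    linarith
  have h1 := sum_incr F hab hb.le
  have h2 : ∑ l ∈ Finset.Ico a b, (S.pairEx l (fun x x' => (Rov φ x x' - S.Rl φ l) ^ 2) +
      2 * (S.Rl φ (l + 1) - S.Rl φ l) ^ 2) ≤
      ∑ l ∈ Finset.Ico a b, (2 * S.Ex (fun z x => (uu S φ (l + 1) z x - uu S φ l z x) ^ 2) +
        20 * γ / π ^ 2) := by
    refine Finset.sum_le_sum fun l hl => ?_
    rw [Finset.mem_Ico] at hl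
    have h3 := pair_var F hinj hs (show l < S.K by omega) (hP l hl.1 (by omega))
      (hP (l + 1) (by omega) (by omega)) hπ (hp l hl.1 hl.2.le) hγ0 (hge l hl.1 hl.2.le)
    have h4 := Cv_diff F (show l < S.K by omega)
    have h5 := hC l hl.1 hl.2
    have h6 := Cv_nonneg F (nh_uu (φ := φ) hS (show l + 1 ≤ S.K by omega))
    have h7 := (abs_le.mp h5).2
    rw [h4]
    have e : 20 * γ / π ^ 2 = 4 * γ / π ^ 2 + 4 * (4 * γ / π ^ 2) := by ring
    rw [e]
    linarith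
  refine h2.trans ?_
  rw [Finset.sum_add_distrib, ← Finset.mul_sum, Finset.sum_const, Nat.card_Ico, nsmul_eq_mul,
    Nat.cast_sub hab]
  have e : 20 * ((b : ℝ) - a) * γ / π ^ 2 = ((b : ℝ) - a) * (20 * γ / π ^ 2) := by ring
  rw [e]
  linarith

/-- **Concentration at a good level of a bundle.** -/
theorem conc (F : FldP S D φ zc s P) (hinj : ∀ p ≤ S.K, P p → Function.Injective (zc p))
    (hs : ∀ p ≤ S.K, P p → 0 < s p) (hG : GP S φ zc s P) {a b : ℕ} (hab : a < b) (hb : b < S.K)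
    (hP : ∀ l, a ≤ l → l ≤ b + 1 → P l) {π γ : ℝ} (hπ : 0 < π) (hp : ∀ l, a ≤ l → l ≤ b → π ≤ S.p l)
    (hγ : ∀ l, a ≤ l → l ≤ b + 1 → gg S φ zc s l l ≤ γ) :
    ∃ l, a ≤ l ∧ l < b ∧ S.pairEx l (fun x x' => (Rov φ x x' - S.Rl φ l) ^ 2) +
      2 * (S.Rl φ (l + 1) - S.Rl φ l) ^ 2 ≤ 5 * Th S φ b / (b - a) + 20 * γ / π ^ 2 := by
  by_contra hcon
  push Not at hcon
  have h := conc_sum F hinj hs hG hab.le hb hP hπ hp hγ
  have hba : (0 : ℝ) < (b : ℝ) - a := by
    have : (a : ℝ) < b := by exact_mod_cast hab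
    linarith
  have h1 : ∑ l ∈ Finset.Ico a b, (5 * Th S φ b / ((b : ℝ) - a) + 20 * γ / π ^ 2) <
      ∑ l ∈ Finset.Ico a b, (S.pairEx l (fun x x' => (Rov φ x x' - S.Rl φ l) ^ 2) +
      2 * (S.Rl φ (l + 1) - S.Rl φ l) ^ 2) := by
    refine Finset.sum_lt_sum_of_nonempty (Finset.nonempty_Ico.mpr hab) fun l hl => ?_
    rw [Finset.mem_Ico] at hl
    exact hcon l hl.1 hl.2
  rw [Finset.sum_const, Nat.card_Ico, nsmul_eq_mul, Nat.cast_sub hab.le] at h1
  have e : ((b : ℝ) - a) * (5 * Th S φ b / ((b : ℝ) - a) + 20 * γ / π ^ 2) =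
      5 * Th S φ b + 20 * ((b : ℝ) - a) * γ / π ^ 2 := by
    field_simp
  rw [e] at h1
  linarith

end Vale.Agent.P146.H295
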