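import Vale.Agent.P146.H295.FldP

set_option linter.all false

/-!
Concentration of the overlap at a good level of a bundle of levels, part A: the deficit Gram
matrix of the fields and the exact covariance identities.
-/

open MeasureTheory ProbabilityTheory

namespace Vale.Agent.P146.H295

open Vale.Agent.P157.Lv Vale.Agent.P157.Lv.Sy
open Vale.Agent.P157.Lv.Fld (uu nh_uu mg_eq eg_mg dep_mg sum_mg_sq Ex_mg_mul)

variable {ι X : Type} [Fintype ι] [DecidableEq ι] [Fintype X] [DecidableEq X] [Nonempty X]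
  {S : Sy ι X} {D : ι → (ι → ℝ) → X → ℝ} {N : ℕ}
  {φ : X → Fin N → ℝ} {zc : ℕ → Fin N → ι} {s : ℕ → ℝ} {P : ℕ → Prop}

/-- The covariance under the tilted law. -/
noncomputable def Cv (S : Sy ι X) (f g : (ι → ℝ) → X → ℝ) : ℝ :=
  S.Ex (fun z x => f z x * g z x) - S.Ex f * S.Ex g

/-- The normalised field of the level `p`. -/
noncomputable def ll (φ : X → Fin N → ℝ) (zc : ℕ → Fin N → ι) (s : ℕ → ℝ) (p : ℕ) :
    (ι → ℝ) → X → ℝ := fun z x => 1 / s p * hz φ zc p z x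

/-- The deficit Gram matrix of the fields. -/
noncomputable def gg (S : Sy ι X) (φ : X → Fin N → ℝ) (zc : ℕ → Fin N → ι) (s : ℕ → ℝ)
    (p q : ℕ) : ℝ :=
  (if p = q then 1 / (N * s p ^ 2) else 0) - Cv S (ll φ zc s p) (ll φ zc s q)

lemma Cv_comm (f g : (ι → ℝ) → X → ℝ) : Cv S f g = Cv S g f := by
  unfold Cv
  rw [mul_comm (S.Ex f)]
  congr 2
  funext z x
  exact mul_comm _ _

lemma gg_comm (p q : ℕ) : gg S φ zc s p q = gg S φ zc s q p := by
  unfold gg
  rw [Cv_comm]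
  by_cases h : p = q
  · subst h; rfl
  · rw [if_neg h, if_neg (Ne.symm h)]

lemma nh_ll (F : FldP S D φ zc s P) (p : ℕ) : Nh (ll φ zc s p) := Nh.const_mul _ (F.nh_hz p)

lemma nh_c (c : ℝ) : Nh (ι := ι) (X := X) (fun _ _ => c) := Nh.fst (EG.const c)

/-- derivative of a field in a coordinate of a field -/
lemma pd_hz (F : FldP S D φ zc s P) (hinj : ∀ p ≤ S.K, P p → Function.Injective (zc p)) {p q : ℕ}
    (hp : p ≤ S.K) (hq : q ≤ S.K) (Pp : P p) (Pq : P q) (i : Fin N) (x : X) :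
    PD (zc p i) (fun z => hz φ zc q z x) (fun _ => if p = q then 1 / N * φ x i else 0) := by
  have h := (PD.sum (e := zc p i) Finset.univ fun (j : Fin N) _ =>
    ((PD.coord (e := zc p i) (zc q j)).mul (PD.const (φ x j)))).const_mul (1 / (N : ℝ))
  refine h.congr fun y => ?_
  by_cases hpq : p = q
  · subst hpq
    rw [if_pos rfl]
    congr 1
    rw [Finset.sum_eq_single i]
    · simp
    · intro j _ hj
      rw [if_neg fun h => hj (hinj p hp Pp h)]
      simp
    · intro h; exact absurd (Finset.mem_univ i) h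
  · rw [if_neg hpq]
    rw [Finset.sum_eq_zero, mul_zero]
    intro j _
    rw [if_neg]
    · simp
    · intro h
      apply hpq
      rw [← F.lev p hp Pp i, ← F.lev q hq Pq j, h]

/-- the covariance of two fields -/
lemma Ex_hz_hz (F : FldP S D φ zc s P) (hinj : ∀ p ≤ S.K, P p → Function.Injective (zc p)) {p q : ℕ}
    (hp : p ≤ S.K) (hq : q ≤ S.K) (Pp : P p) (Pq : P q) :
    S.Ex (fun z x => hz φ zc p z x * hz φ zc q z x) = (if p = q then 1 / (N : ℝ) else 0) +
      s p * (S.Ex (hz φ zc q) - ∑ k ∈ Finset.Ico p (S.K + 1), S.p k *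
        S.Ex (fun z x => hz φ zc q z x * uu S φ k z x)) := by
  have hN := F.N_pos
  have h := F.Ex_hz_mul hp Pp (u := hz φ zc q)
    (u' := fun i _ x => if p = q then 1 / N * φ x i else 0)
    (fun i x => pd_hz F hinj hp hq Pp Pq i x) (F.nh_hz q)
    (fun i => by
      split_ifs
      · exact Nh.snd fun x => 1 / (N : ℝ) * φ x i
      · exact nh_c 0)
  rw [h]
  congr 1
  by_cases hpq : p = q
  · simp only [if_pos hpq]
    have e : (fun (_ : ι → ℝ) (x : X) => 1 / (N : ℝ) * ∑ i, φ x i * (1 / N * φ x i)) =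
        fun _ _ => 1 / (N : ℝ) := by
      funext z x
      have e1 : ∑ i, φ x i * (1 / (N : ℝ) * φ x i) = 1 / N * ∑ i, φ x i ^ 2 := by
        rw [Finset.mul_sum]
        refine Finset.sum_congr rfl fun i _ => ?_
        ring
      rw [e1, F.norm]
      field_simp
    rw [e, F.hreg.Ex_const]
  · simp only [if_neg hpq, mul_zero, Finset.sum_const_zero]
    exact F.hreg.Ex_const 0

/-- the deficit as a sum of covariances with the overlaps -/
lemma gg_eq (F : FldP S D φ zc s P) (hinj : ∀ p ≤ S.K, P p → Function.Injective (zc p))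
    (hs : ∀ p ≤ S.K, P p → 0 < s p) {p q : ℕ} (hp : p ≤ S.K) (hq : q ≤ S.K) (Pp : P p) (Pq : P q) :
    gg S φ zc s p q = ∑ k ∈ Finset.Ico p (S.K + 1), S.p k * Cv S (ll φ zc s q) (uu S φ k) := by
  have hN := F.N_pos
  have hS := F.hreg
  have hsp := hs p hp Pp
  have hsq := hs q hq Pq
  have e1 : S.Ex (fun z x => ll φ zc s p z x * ll φ zc s q z x) =
      1 / s p * (1 / s q) * S.Ex (fun z x => hz φ zc p z x * hz φ zc q z x) := by
    rw [← Sy.Ex_const_mul]
    congr 1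
    funext z x
    simp only [ll]
    ring
  have e2 : ∀ p, S.Ex (ll φ zc s p) = 1 / s p * S.Ex (hz φ zc p) := fun p => by
    rw [← Sy.Ex_const_mul]
    rfl
  have e3 : ∀ k, S.Ex (fun z x => ll φ zc s q z x * uu S φ k z x) =
      1 / s q * S.Ex (fun z x => hz φ zc q z x * uu S φ k z x) := fun k => by
    rw [← Sy.Ex_const_mul]
    congr 1
    funext z x
    simp only [ll]
    ring
  have hk : ∀ k ∈ Finset.Ico p (S.K + 1), k ≤ S.K := fun k hk => by
    rw [Finset.mem_Ico] at hk; omega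
  have e4 : ∑ k ∈ Finset.Ico p (S.K + 1), S.p k * Cv S (ll φ zc s q) (uu S φ k) =
      1 / s q * (∑ k ∈ Finset.Ico p (S.K + 1), S.p k *
        S.Ex (fun z x => hz φ zc q z x * uu S φ k z x) -
        S.Ex (hz φ zc q) * ∑ k ∈ Finset.Ico p (S.K + 1), S.p k * S.Rl φ k) := by
    rw [Finset.mul_sum (a := S.Ex (hz φ zc q)), ← Finset.sum_sub_distrib, Finset.mul_sum]
    refine Finset.sum_congr rfl fun k hk' => ?_
    simp only [Cv]
    rw [e3, e2, F.Ex_uu (hk k hk')]
    ring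
  rw [e4]
  unfold gg Cv
  rw [e1, Ex_hz_hz F hinj hp hq Pp Pq, e2, e2]
  rw [F.Ex_hz hp Pp]
  have h0 : (if p = q then 1 / ((N : ℝ) * s p ^ 2) else 0) =
      1 / s p * (1 / s q) * (if p = q then 1 / (N : ℝ) else 0) := by
    by_cases hpq : p = q
    · subst hpq
      rw [if_pos rfl, if_pos rfl]
      field_simp
    · rw [if_neg hpq, if_neg hpq, mul_zero]
  rw [h0]
  field_simp
  ring

/-- (I1) -/
theorem gg_sub (F : FldP S D φ zc s P) (hinj : ∀ p ≤ S.K, P p → Function.Injective (zc p))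
    (hs : ∀ p ≤ S.K, P p → 0 < s p) {p q : ℕ} (hp : p < S.K) (hq : q ≤ S.K) (Pp : P p)
    (Pp1 : P (p + 1)) (Pq : P q) :
    gg S φ zc s p q - gg S φ zc s (p + 1) q = S.p p * Cv S (ll φ zc s q) (uu S φ p) := by
  rw [gg_eq F hinj hs hp.le hq Pp Pq, gg_eq F hinj hs hp hq Pp1 Pq,
    Finset.sum_eq_sum_Ico_succ_bot (by omega : p < S.K + 1)]
  ring

/-- (I1) at the top level -/
theorem gg_top (F : FldP S D φ zc s P) (hinj : ∀ p ≤ S.K, P p → Function.Injective (zc p))
    (hs : ∀ p ≤ S.K, P p → 0 < s p) {q : ℕ} (hq : q ≤ S.K) (PK : P S.K) (Pq : P q) :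
    gg S φ zc s S.K q = S.p S.K * Cv S (ll φ zc s q) (uu S φ S.K) := by
  rw [gg_eq F hinj hs le_rfl hq PK Pq]
  simp

/-- (A) in covariance form -/
theorem cov_A (F : FldP S D φ zc s P) (hs : ∀ p ≤ S.K, P p → 0 < s p) {l j : ℕ} (hlj : l < j)
    (hj : j ≤ S.K) (Pj : P j) :
    Cv S (ll φ zc s j) (uu S φ l) =
      - ∑ i ∈ Finset.Ico j (S.K + 1), S.p i * Cv S (uu S φ l) (uu S φ i) := by
  have hS := F.hreg
  have hsj := hs j hj Pj
  have hl : l ≤ S.K := hlj.le.trans hj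
  have h := F.ident_A hlj hj Pj
  have e1 : S.Ex (fun z x => ll φ zc s j z x * uu S φ l z x) =
      1 / s j * S.Ex (fun z x => hz φ zc j z x * uu S φ l z x) := by
    rw [← Sy.Ex_const_mul]
    congr 1
    funext z x
    simp only [ll]
    ring
  have e2 : S.Ex (ll φ zc s j) = 1 / s j * S.Ex (hz φ zc j) := by
    rw [← Sy.Ex_const_mul]
    rfl
  have h' : S.Ex (fun z x => hz φ zc j z x * uu S φ l z x) =
      s j * (S.Rl φ l - ∑ i ∈ Finset.Ico j (S.K + 1), S.p i *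
        S.Ex (fun z x => uu S φ l z x * uu S φ i z x)) := h
  have e3 : ∑ i ∈ Finset.Ico j (S.K + 1), S.p i * Cv S (uu S φ l) (uu S φ i) =
      ∑ i ∈ Finset.Ico j (S.K + 1), S.p i * S.Ex (fun z x => uu S φ l z x * uu S φ i z x) -
        S.Rl φ l * ∑ i ∈ Finset.Ico j (S.K + 1), S.p i * S.Rl φ i := by
    rw [Finset.mul_sum, ← Finset.sum_sub_distrib]
    refine Finset.sum_congr rfl fun i hi => ?_
    rw [Finset.mem_Ico] at hi
    simp only [Cv]
    rw [F.Ex_uu hl, F.Ex_uu (by omega : i ≤ S.K)]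
    ring
  rw [e3]
  unfold Cv
  rw [e1, e2, h', F.Ex_hz hj Pj, F.Ex_uu hl]
  field_simp
  ring

/-- The form `G (e_p, e_q)`, `e_p = l_p - l_{p+1}`. -/
noncomputable def ge (S : Sy ι X) (φ : X → Fin N → ℝ) (zc : ℕ → Fin N → ι) (s : ℕ → ℝ)
    (p q : ℕ) : ℝ :=
  gg S φ zc s p q - gg S φ zc s (p + 1) q - gg S φ zc s p (q + 1) + gg S φ zc s (p + 1) (q + 1)

/-- (I2): the covariance of the overlaps of two levels is the deficit form of the differences of
the fields. -/
theorem ge_eq (F : FldP S D φ zc s P) (hinj : ∀ p ≤ S.K, P p → Function.Injective (zc p))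
    (hs : ∀ p ≤ S.K, P p → 0 < s p) {p q : ℕ} (hpq : p < q) (hq : q < S.K) (Pp : P p)
    (Pp1 : P (p + 1)) (Pq : P q) (Pq1 : P (q + 1)) :
    ge S φ zc s p q = - (S.p p * S.p q * Cv S (uu S φ p) (uu S φ q)) := by
  have h1 := gg_sub F hinj hs (p := p) (q := q) (by omega) hq.le Pp Pp1 Pq
  have h2 := gg_sub F hinj hs (p := p) (q := q + 1) (by omega) hq Pp Pp1 Pq1
  have h3 := cov_A F hs hpq hq.le Pq
  have h4 := cov_A F hs (l := p) (j := q + 1) (by omega) hq Pq1
  rw [Finset.sum_eq_sum_Ico_succ_bot (by omega : q < S.K + 1)] at h3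
  unfold ge
  have e : gg S φ zc s p q - gg S φ zc s (p + 1) q - gg S φ zc s p (q + 1) +
      gg S φ zc s (p + 1) (q + 1) = (gg S φ zc s p q - gg S φ zc s (p + 1) q) -
      (gg S φ zc s p (q + 1) - gg S φ zc s (p + 1) (q + 1)) := by ring
  rw [e, h1, h2, h3, h4]
  ring

/-- (I2) at the top level: the heart lemma. -/
theorem ge_top (F : FldP S D φ zc s P) (hinj : ∀ p ≤ S.K, P p → Function.Injective (zc p))
    (hs : ∀ p ≤ S.K, P p → 0 < s p) {p : ℕ} (hp : p < S.K) (Pp : P p) (Pp1 : P (p + 1))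
    (PK : P S.K) :
    gg S φ zc s p S.K - gg S φ zc s (p + 1) S.K =
      - (S.p p * S.p S.K * Cv S (uu S φ p) (uu S φ S.K)) := by
  have h1 := gg_sub F hinj hs (p := p) (q := S.K) hp le_rfl Pp Pp1 PK
  have h3 := cov_A F hs hp le_rfl PK
  rw [h1, h3]
  simp
  ring

/-- Three replicas: `0`, `1` and `2` split at the level `l` from `0`, and `1`, `2` from each other
at the level `i`. -/
noncomputable def sg (S : Sy ι X) (φ : X → Fin N → ℝ) (l i : ℕ) : ℝ :=
  1 / (N : ℝ) ^ 2 * S.Ex (fun z _ => ∑ a, ∑ b,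
      S.T l (fun _ x => φ x a * φ x b) z * S.T l (fun z _ => S.mg φ i a z * S.mg φ i b z) z)

/-- The second moment of the overlap at the level `l`. -/
noncomputable def Th (S : Sy ι X) (φ : X → Fin N → ℝ) (l : ℕ) : ℝ :=
  S.pairEx l (fun x x' => Rov φ x x' ^ 2)

/-- (B) in covariance form -/
theorem cov_B (F : FldP S D φ zc s P) (hs : ∀ p ≤ S.K, P p → 0 < s p) {l : ℕ} (hl : l ≤ S.K)
    (Pl : P l) :
    Cv S (ll φ zc s l) (uu S φ l) = Th S φ l - ∑ i ∈ Finset.Ico (l + 1) (S.K + 1), S.p i * sg S φ l i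
      - S.m (l + 1) * S.Ex (fun z x => uu S φ l z x ^ 2)
      - ∑ i ∈ Finset.Ico l (S.K + 1), S.p i * Cv S (uu S φ l) (uu S φ i) := by
  have hS := F.hreg
  have hsj := hs l hl Pl
  have h := F.ident_B hl Pl
  have e1 : S.Ex (fun z x => ll φ zc s l z x * uu S φ l z x) =
      1 / s l * S.Ex (fun z x => hz φ zc l z x * uu S φ l z x) := by
    rw [← Sy.Ex_const_mul]
    congr 1
    funext z x
    simp only [ll]
    ring
  have e2 : S.Ex (ll φ zc s l) = 1 / s l * S.Ex (hz φ zc l) := by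
    rw [← Sy.Ex_const_mul]
    rfl
  have h' : S.Ex (fun z x => hz φ zc l z x * uu S φ l z x) =
      s l * (Th S φ l - ∑ i ∈ Finset.Ico (l + 1) (S.K + 1), S.p i * sg S φ l i -
        S.m (l + 1) * S.Ex (fun z x => uu S φ l z x ^ 2) + S.Rl φ l -
        ∑ i ∈ Finset.Ico l (S.K + 1), S.p i * S.Ex (fun z x => uu S φ l z x * uu S φ i z x)) := h
  have e3 : ∑ i ∈ Finset.Ico l (S.K + 1), S.p i * Cv S (uu S φ l) (uu S φ i) =
      ∑ i ∈ Finset.Ico l (S.K + 1), S.p i * S.Ex (fun z x => uu S φ l z x * uu S φ i z x) -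
        S.Rl φ l * ∑ i ∈ Finset.Ico l (S.K + 1), S.p i * S.Rl φ i := by
    rw [Finset.mul_sum, ← Finset.sum_sub_distrib]
    refine Finset.sum_congr rfl fun i hi => ?_
    rw [Finset.mem_Ico] at hi
    simp only [Cv]
    rw [F.Ex_uu hl, F.Ex_uu (by omega : i ≤ S.K)]
    ring
  rw [e3]
  unfold Cv
  rw [e1, e2, h', F.Ex_hz hl Pl, F.Ex_uu hl]
  field_simp
  ring

/-- (I3), first form: the form of one difference. -/
theorem ge_self (F : FldP S D φ zc s P) (hinj : ∀ p ≤ S.K, P p → Function.Injective (zc p))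
    (hs : ∀ p ≤ S.K, P p → 0 < s p) {p : ℕ} (hp : p < S.K) (Pp : P p) (Pp1 : P (p + 1)) :
    ge S φ zc s p p = S.p p * (Th S φ p - ∑ i ∈ Finset.Ico (p + 1) (S.K + 1), S.p i * sg S φ p i
      - S.m (p + 1) * S.Ex (fun z x => uu S φ p z x ^ 2) - S.p p * Cv S (uu S φ p) (uu S φ p)) := by
  have h1 := gg_sub F hinj hs (p := p) (q := p) hp hp.le Pp Pp1 Pp
  have h2 := gg_sub F hinj hs (p := p) (q := p + 1) hp hp Pp Pp1 Pp1
  have h3 := cov_B F hs hp.le Pp
  have h4 := cov_A F hs (l := p) (j := p + 1) (by omega) hp Pp1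
  rw [Finset.sum_eq_sum_Ico_succ_bot (by omega : p < S.K + 1)] at h3
  unfold ge
  have e : gg S φ zc s p p - gg S φ zc s (p + 1) p - gg S φ zc s p (p + 1) +
      gg S φ zc s (p + 1) (p + 1) = (gg S φ zc s p p - gg S φ zc s (p + 1) p) -
      (gg S φ zc s p (p + 1) - gg S φ zc s (p + 1) (p + 1)) := by ring
  rw [e, h1, h2, h3, h4]
  ring

end Vale.Agent.P146.H295
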