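import Vale.Agent.P146.H295.ConcA

set_option linter.all false

/-!
Concentration of the overlap at a good level of a bundle of levels, part B: the increments of the
fields `u_l = m_l · x / N` are square summable with the second moment of the overlap.
-/

open MeasureTheory ProbabilityTheory

namespace Vale.Agent.P146.H295

open Vale.Agent.P157.Lv Vale.Agent.P157.Lv.Sy
open Vale.Agent.P157.Lv.Fld (uu nh_uu mg_eq eg_mg dep_mg sum_mg_sq Ex_mg_mul)

variable {ι X : Type} [Fintype ι] [DecidableEq ι] [Fintype X] [DecidableEq X] [Nonempty X]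
  {S : Sy ι X} {D : ι → (ι → ℝ) → X → ℝ} {N : ℕ}
  {φ : X → Fin N → ℝ} {zc : ℕ → Fin N → ι} {s : ℕ → ℝ} {P : ℕ → Prop}

/-- The conditional second moments. -/
noncomputable def A2 (S : Sy ι X) (φ : X → Fin N → ℝ) (l : ℕ) (a b : Fin N) : (ι → ℝ) → ℝ :=
  S.T l (fun _ x => φ x a * φ x b)

/-- The square of the Hilbert-Schmidt norm. -/
noncomputable def q2 (S : Sy ι X) (φ : X → Fin N → ℝ) (l : ℕ) (z : ι → ℝ) : ℝ :=
  ∑ a, ∑ b, A2 S φ l a b z ^ 2

/-- The Hilbert-Schmidt norm. -/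
noncomputable def q1 (S : Sy ι X) (φ : X → Fin N → ℝ) (l : ℕ) (z : ι → ℝ) : ℝ := √(q2 S φ l z)

/-- `|D_{l+1} - D_l|²` -/
noncomputable def dd (S : Sy ι X) (φ : X → Fin N → ℝ) (l : ℕ) (z : ι → ℝ) : ℝ :=
  ∑ a, (S.mg φ (l + 1) a z - S.mg φ l a z) ^ 2

/-- `|D_l|²` -/
noncomputable def yy (S : Sy ι X) (φ : X → Fin N → ℝ) (l : ℕ) (z : ι → ℝ) : ℝ :=
  ∑ a, S.mg φ l a z ^ 2

/-- `D_l · (D_{l+1} - D_l)` -/
noncomputable def zz (S : Sy ι X) (φ : X → Fin N → ℝ) (l : ℕ) (z : ι → ℝ) : ℝ :=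
  ∑ a, S.mg φ l a z * (S.mg φ (l + 1) a z - S.mg φ l a z)

lemma eg_A2 (hS : S.Reg) {l : ℕ} (hl : l ≤ S.K) (a b : Fin N) : EG (A2 S φ l a b) :=
  hS.eg_T hl (Nh.snd fun x => φ x a * φ x b)

lemma eg_q2 (hS : S.Reg) {l : ℕ} (hl : l ≤ S.K) : EG (q2 S φ l) :=
  EG.sum _ fun a _ => EG.sum _ fun b _ => (eg_A2 hS hl a b).pow 2

lemma q2_nonneg (l : ℕ) (z : ι → ℝ) : 0 ≤ q2 S φ l z :=
  Finset.sum_nonneg fun a _ => Finset.sum_nonneg fun b _ => sq_nonneg _

lemma q1_nonneg (l : ℕ) (z : ι → ℝ) : 0 ≤ q1 S φ l z := Real.sqrt_nonneg _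

lemma q1_sq (l : ℕ) (z : ι → ℝ) : q1 S φ l z ^ 2 = q2 S φ l z := Real.sq_sqrt (q2_nonneg l z)

lemma eg_q1 (hS : S.Reg) {l : ℕ} (hl : l ≤ S.K) : EG (q1 S φ l) := by
  refine EG.mono ((EG.const 1).add (eg_q2 (φ := φ) hS hl)) (Real.continuous_sqrt.measurable.comp
    (eg_q2 hS hl).meas) fun z => ?_
  rw [abs_of_nonneg (q1_nonneg l z), abs_of_nonneg (by
    have := q2_nonneg (S := S) (φ := φ) l z
    linarith)]
  rw [q1, Real.sqrt_le_left (by have := q2_nonneg (S := S) (φ := φ) l z; linarith)]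
  have := q2_nonneg (S := S) (φ := φ) l z
  nlinarith

lemma dep_A2 (S : Sy ι X) (φ : X → Fin N → ℝ) (l : ℕ) (a b : Fin N) :
    Dep S.lev l (A2 S φ l a b) := S.dep_T l _

lemma cs_mat (c A : Fin N → Fin N → ℝ) :
    ∑ a, ∑ b, c a b * A a b ≤ √(∑ a, ∑ b, c a b ^ 2) * √(∑ a, ∑ b, A a b ^ 2) := by
  have h := Finset.sum_mul_sq_le_sq_mul_sq (Finset.univ : Finset (Fin N × Fin N))
    (fun p => c p.1 p.2) (fun p => A p.1 p.2)
  rw [Fintype.sum_prod_type, Fintype.sum_prod_type, Fintype.sum_prod_type] at h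
  have h1 := Real.le_sqrt_of_sq_le h
  rwa [Real.sqrt_mul (Finset.sum_nonneg fun a _ => Finset.sum_nonneg fun b _ => sq_nonneg _)] at h1

/-- the norm is a submartingale -/
lemma q1_le (hS : S.Reg) {l k : ℕ} (hlk : l ≤ k) (hk : k ≤ S.K) (z : ι → ℝ) :
    q1 S φ l z ≤ S.T l (fun z _ => q1 S φ k z) z := by
  have hl := hlk.trans hk
  set c : Fin N → Fin N → ℝ := fun a b => A2 S φ l a b z with hc
  have e1 : q2 S φ l z = S.T l (fun z _ => ∑ a, ∑ b, c a b * A2 S φ k a b z) z := by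
    rw [hS.T_sum hl _ fun a _ => Nh.sum _ fun b _ => Nh.const_mul _ (Nh.fst (eg_A2 hS hk a b))]
    refine Finset.sum_congr rfl fun a _ => ?_
    rw [hS.T_sum hl _ fun b _ => Nh.const_mul _ (Nh.fst (eg_A2 hS hk a b))]
    refine Finset.sum_congr rfl fun b _ => ?_
    rw [Sy.T_const_mul]
    have := hS.T_T hlk hk (Nh.snd (ι := ι) fun x => φ x a * φ x b) z
    rw [show S.T l (fun z _ => A2 S φ k a b z) z = A2 S φ l a b z from this, sq]
  have h1 : q2 S φ l z ≤ √(q2 S φ l z) * S.T l (fun z _ => q1 S φ k z) z := by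
    have h2 := hS.T_mono hl (f := fun z _ => ∑ a, ∑ b, c a b * A2 S φ k a b z)
      (g := fun z _ => √(q2 S φ l z) * q1 S φ k z)
    rw [e1]
    have h3 := hS.T_mono hl (f := fun z' _ => ∑ a, ∑ b, c a b * A2 S φ k a b z')
      (g := fun z' _ => √(q2 S φ l z) * q1 S φ k z')
      (Nh.sum _ fun a _ => Nh.sum _ fun b _ => Nh.const_mul _ (Nh.fst (eg_A2 hS hk a b)))
      (Nh.const_mul _ (Nh.fst (eg_q1 hS hk))) (fun z' _ => cs_mat c fun a b => A2 S φ k a b z') z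
    refine h3.trans (le_of_eq ?_)
    rw [Sy.T_const_mul, ← e1]
  rcases eq_or_lt_of_le (q1_nonneg (S := S) (φ := φ) l z) with h0 | h0
  · rw [← h0]
    have h4 := hS.T_mono hl (f := fun _ _ => (0 : ℝ)) (g := fun z' _ => q1 S φ k z')
      (nh_c 0) (Nh.fst (eg_q1 hS hk)) (fun z' _ => q1_nonneg k z') z
    rwa [hS.T_const hl] at h4
  · have h5 : q1 S φ l z * q1 S φ l z ≤ q1 S φ l z * S.T l (fun z _ => q1 S φ k z) z := by
      rw [← sq, q1_sq]
      exact h1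
    exact le_of_mul_le_mul_left h5 h0

lemma dep_mgs (S : Sy ι X) (φ : X → Fin N → ℝ) {l k : ℕ} (h : l ≤ k) (a : Fin N) :
    Dep S.lev k (S.mg φ l a) := (Fld.dep_mg S φ l a).mono h

lemma dep_dd (S : Sy ι X) (φ : X → Fin N → ℝ) (l : ℕ) : Dep S.lev (l + 1) (dd S φ l) := by
  intro z w
  simp only [dd]
  refine Finset.sum_congr rfl fun a _ => ?_
  rw [dep_mgs S φ (Nat.le_succ l) a z w, dep_mgs S φ le_rfl a z w]

lemma dep_yy (S : Sy ι X) (φ : X → Fin N → ℝ) (l : ℕ) : Dep S.lev l (yy S φ l) := by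
  intro z w
  simp only [yy]
  refine Finset.sum_congr rfl fun a _ => ?_
  rw [dep_mgs S φ le_rfl a z w]

lemma dep_zz (S : Sy ι X) (φ : X → Fin N → ℝ) (l : ℕ) : Dep S.lev (l + 1) (zz S φ l) := by
  intro z w
  simp only [zz]
  refine Finset.sum_congr rfl fun a _ => ?_
  rw [dep_mgs S φ (Nat.le_succ l) a z w, dep_mgs S φ le_rfl a z w]

lemma eg_dd (hS : S.Reg) {l : ℕ} (hl : l < S.K) : EG (dd S φ l) :=
  EG.sum _ fun a _ => ((Fld.eg_mg hS (show l + 1 ≤ S.K from hl) a).sub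
    (Fld.eg_mg hS hl.le a)).pow 2

lemma eg_yy (hS : S.Reg) {l : ℕ} (hl : l ≤ S.K) : EG (yy S φ l) :=
  EG.sum _ fun a _ => (Fld.eg_mg hS hl a).pow 2

lemma eg_zz (hS : S.Reg) {l : ℕ} (hl : l < S.K) : EG (zz S φ l) :=
  EG.sum _ fun a _ => (Fld.eg_mg hS hl.le a).mul ((Fld.eg_mg hS (show l + 1 ≤ S.K from hl) a).sub
    (Fld.eg_mg hS hl.le a))

lemma dd_nonneg (l : ℕ) (z : ι → ℝ) : 0 ≤ dd S φ l z := Finset.sum_nonneg fun _ _ => sq_nonneg _

lemma yy_nonneg (l : ℕ) (z : ι → ℝ) : 0 ≤ yy S φ l z := Finset.sum_nonneg fun _ _ => sq_nonneg _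

/-- the increments of `u_l` -/
lemma incr_le (F : FldP S D φ zc s P) {l k : ℕ} (hlk : l < k) (hk : k ≤ S.K) :
    S.Ex (fun z x => (uu S φ (l + 1) z x - uu S φ l z x) ^ 2) ≤
      1 / (N : ℝ) ^ 2 * S.Ex (fun z _ => q1 S φ k z * dd S φ l z) := by
  have hS := F.hreg
  have hl : l < S.K := lt_of_lt_of_le hlk hk
  have hl1 : l + 1 ≤ S.K := hl
  set d : Fin N → (ι → ℝ) → ℝ := fun a z => S.mg φ (l + 1) a z - S.mg φ l a z with hd
  have ed : ∀ a, EG (d a) := fun a => (Fld.eg_mg hS hl1 a).sub (Fld.eg_mg hS hl.le a)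
  have pd : ∀ a, Dep S.lev (l + 1) (d a) := by
    intro a z w
    simp only [hd]
    rw [dep_mgs S φ (Nat.le_succ l) a z w, dep_mgs S φ le_rfl a z w]
  have nab : ∀ a b, Nh (ι := ι) (fun (_ : ι → ℝ) (x : X) => φ x a * φ x b) := fun a b =>
    Nh.snd fun x => φ x a * φ x b
  have e1 : (fun z x => (uu S φ (l + 1) z x - uu S φ l z x) ^ 2) =
      fun z x => 1 / (N : ℝ) ^ 2 * ∑ a, ∑ b, (d a z * d b z) * (φ x a * φ x b) := by
    funext z x
    have e2 : uu S φ (l + 1) z x - uu S φ l z x = 1 / N * ∑ a, d a z * φ x a := by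
      simp only [uu, hd]
      rw [← mul_sub, ← Finset.sum_sub_distrib]
      congr 1
      refine Finset.sum_congr rfl fun a _ => ?_
      ring
    rw [e2, mul_pow, sq (∑ a, d a z * φ x a), Finset.sum_mul_sum, div_pow, one_pow]
    congr 1
    refine Finset.sum_congr rfl fun a _ => Finset.sum_congr rfl fun b _ => ?_
    ring
  have e3 : S.Ex (fun z x => (uu S φ (l + 1) z x - uu S φ l z x) ^ 2) =
      1 / (N : ℝ) ^ 2 * S.Ex (fun z _ => ∑ a, ∑ b, (d a z * d b z) * A2 S φ (l + 1) a b z) := by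
    rw [e1, Sy.Ex_const_mul]
    congr 1
    rw [hS.Ex_sum _ fun a _ => Nh.sum _ fun b _ =>
        Nh.mul (Nh.fst ((ed a).mul (ed b))) (nab a b),
      hS.Ex_sum _ fun a _ => Nh.sum _ fun b _ =>
        Nh.fst (((ed a).mul (ed b)).mul (eg_A2 hS hl1 a b))]
    refine Finset.sum_congr rfl fun a _ => ?_
    rw [hS.Ex_sum _ fun b _ => Nh.mul (Nh.fst ((ed a).mul (ed b))) (nab a b),
      hS.Ex_sum _ fun b _ => Nh.fst (((ed a).mul (ed b)).mul (eg_A2 hS hl1 a b))]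
    refine Finset.sum_congr rfl fun b _ => ?_
    refine (hS.Ex_mul_T hl1 (φ := fun z => d a z * d b z) ?_ ((ed a).mul (ed b)) (nab a b)).symm
    intro z w
    exact congrArg₂ (· * ·) (pd a z w) (pd b z w)
  rw [e3]
  refine mul_le_mul_of_nonneg_left ?_ (by positivity)
  have e4 : S.Ex (fun z _ => q1 S φ k z * dd S φ l z) =
      S.Ex (fun z _ => dd S φ l z * S.T (l + 1) (fun z _ => q1 S φ k z) z) := by
    rw [hS.Ex_mul_T hl1 (dep_dd S φ l) (eg_dd hS hl) (Nh.fst (eg_q1 hS hk))]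
    congr 1
    funext z _
    exact mul_comm _ _
  rw [e4]
  refine hS.Ex_mono (Nh.sum _ fun a _ => Nh.sum _ fun b _ =>
    Nh.fst (((ed a).mul (ed b)).mul (eg_A2 hS hl1 a b)))
    (Nh.fst ((eg_dd hS hl).mul (hS.eg_T hl1 (Nh.fst (eg_q1 hS hk))))) fun z _ => ?_
  have h1 := cs_mat (fun a b => d a z * d b z) (fun a b => A2 S φ (l + 1) a b z)
  have h2 : √(∑ a, ∑ b, (d a z * d b z) ^ 2) = dd S φ l z := by
    have e5 : ∑ a, ∑ b, (d a z * d b z) ^ 2 = dd S φ l z ^ 2 := by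
      rw [dd, sq (∑ a, (S.mg φ (l + 1) a z - S.mg φ l a z) ^ 2), Finset.sum_mul_sum]
      refine Finset.sum_congr rfl fun a _ => Finset.sum_congr rfl fun b _ => ?_
      simp only [hd]
      ring
    rw [e5, Real.sqrt_sq (dd_nonneg l z)]
  rw [h2] at h1
  refine h1.trans (mul_le_mul_of_nonneg_left ?_ (dd_nonneg l z))
  exact q1_le hS (show l + 1 ≤ k from hlk) hk z

/-- martingale orthogonality -/
lemma Ex_zz (F : FldP S D φ zc s P) {l : ℕ} (hl : l < S.K) {g : (ι → ℝ) → ℝ} (hg : EG g)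
    (hgd : Dep S.lev l g) : S.Ex (fun z _ => g z * zz S φ l z) = 0 := by
  have hS := F.hreg
  have hl1 : l + 1 ≤ S.K := hl
  have e0 := fun a => Fld.eg_mg (φ := φ) hS hl.le a
  have e1 := fun a => Fld.eg_mg (φ := φ) hS hl1 a
  have h1 : (fun (z : ι → ℝ) (_ : X) => g z * zz S φ l z) =
      fun z _ => ∑ a, ((g z * S.mg φ l a z) * S.mg φ (l + 1) a z -
        (g z * S.mg φ l a z) * S.mg φ l a z) := by
    funext z _
    rw [zz, Finset.mul_sum]
    refine Finset.sum_congr rfl fun a _ => ?_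
    ring
  rw [h1, hS.Ex_sum _ fun a _ => Nh.sub (Nh.fst ((hg.mul (e0 a)).mul (e1 a)))
    (Nh.fst ((hg.mul (e0 a)).mul (e0 a)))]
  refine Finset.sum_eq_zero fun a _ => ?_
  rw [hS.Ex_sub (Nh.fst ((hg.mul (e0 a)).mul (e1 a))) (Nh.fst ((hg.mul (e0 a)).mul (e0 a)))]
  have d0 : Dep S.lev l (fun z => g z * S.mg φ l a z) := by
    intro z w
    exact congrArg₂ (· * ·) (hgd z w) (Fld.dep_mg S φ l a z w)
  have h2 := hS.Ex_mul_T hl.le d0 (hg.mul (e0 a)) (Nh.snd (ι := ι) fun x => φ x a)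
  have h3 := hS.Ex_mul_T hl1 (d0.mono (Nat.le_succ l)) (hg.mul (e0 a))
    (Nh.snd (ι := ι) fun x => φ x a)
  rw [show S.Ex (fun z _ => g z * S.mg φ l a z * S.mg φ (l + 1) a z) = _ from h3,
    show S.Ex (fun z _ => g z * S.mg φ l a z * S.mg φ l a z) = _ from h2, sub_self]

lemma yy_succ (l : ℕ) (z : ι → ℝ) :
    yy S φ (l + 1) z = yy S φ l z + 2 * zz S φ l z + dd S φ l z := by
  simp only [yy, zz, dd]
  rw [Finset.mul_sum, ← Finset.sum_add_distrib, ← Finset.sum_add_distrib]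
  refine Finset.sum_congr rfl fun a _ => ?_
  ring

lemma zz_sq (l : ℕ) (z : ι → ℝ) : zz S φ l z ^ 2 ≤ yy S φ l z * dd S φ l z :=
  Finset.sum_mul_sq_le_sq_mul_sq Finset.univ (fun a => S.mg φ l a z)
    (fun a => S.mg φ (l + 1) a z - S.mg φ l a z)

/-- second moment of one step -/
lemma Ex_zz_sq (F : FldP S D φ zc s P) {l : ℕ} (hl : l < S.K) :
    S.Ex (fun z _ => zz S φ l z ^ 2) ≤
      1 / 2 * (S.Ex (fun z _ => yy S φ (l + 1) z ^ 2) - S.Ex (fun z _ => yy S φ l z ^ 2)) := by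
  have hS := F.hreg
  have ey := eg_yy (φ := φ) hS hl.le
  have ey1 := eg_yy (φ := φ) hS (show l + 1 ≤ S.K from hl)
  have ez := eg_zz (φ := φ) hS hl
  have ed := eg_dd (φ := φ) hS hl
  have h1 : S.Ex (fun z _ => zz S φ l z ^ 2) ≤ S.Ex (fun z _ => yy S φ l z * dd S φ l z) :=
    hS.Ex_mono (Nh.fst (ez.pow 2)) (Nh.fst (ey.mul ed)) fun z _ => zz_sq l z
  have h2 : S.Ex (fun z _ => yy S φ l z * dd S φ l z) + 2 * S.Ex (fun z _ => yy S φ l z * zz S φ l z)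
      ≤ 1 / 2 * (S.Ex (fun z _ => yy S φ (l + 1) z ^ 2) - S.Ex (fun z _ => yy S φ l z ^ 2)) := by
    rw [← hS.Ex_sub (Nh.fst (ey1.pow 2)) (Nh.fst (ey.pow 2)), ← Sy.Ex_const_mul,
      ← Sy.Ex_const_mul, ← hS.Ex_add (Nh.fst (ey.mul ed)) (Nh.const_mul _ (Nh.fst (ey.mul ez)))]
    refine hS.Ex_mono (Nh.add (Nh.fst (ey.mul ed)) (Nh.const_mul _ (Nh.fst (ey.mul ez))))
      (Nh.const_mul _ (Nh.sub (Nh.fst (ey1.pow 2)) (Nh.fst (ey.pow 2)))) fun z _ => ?_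
    have h3 := yy_succ (S := S) (φ := φ) l z
    have h4 : dd S φ l z = yy S φ (l + 1) z - yy S φ l z - 2 * zz S φ l z := by linarith
    rw [h4]
    nlinarith [sq_nonneg (yy S φ (l + 1) z - yy S φ l z)]
  rw [Ex_zz F hl ey (dep_yy S φ l), mul_zero, add_zero] at h2
  exact h1.trans h2

/-- second moment of the martingale part -/
lemma Ex_sum_zz (F : FldP S D φ zc s P) {a : ℕ} (k : ℕ) (hak : a ≤ k) (hk : k ≤ S.K) :
    S.Ex (fun z _ => (∑ l ∈ Finset.Ico a k, zz S φ l z) ^ 2) ≤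
      1 / 2 * (S.Ex (fun z _ => yy S φ k z ^ 2) - S.Ex (fun z _ => yy S φ a z ^ 2)) := by
  have hS := F.hreg
  induction k, hak using Nat.le_induction with
  | base => simp [hS.Ex_const]
  | succ k hak ih =>
    have hkK : k < S.K := hk
    have ih := ih hkK.le
    set M : (ι → ℝ) → ℝ := fun z => ∑ l ∈ Finset.Ico a k, zz S φ l z with hM
    have eM : EG M := EG.sum _ fun l hl => eg_zz hS (by rw [Finset.mem_Ico] at hl; omega)
    have dM : Dep S.lev k M := by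
      intro z w
      simp only [hM]
      refine Finset.sum_congr rfl fun l hl => ?_
      rw [Finset.mem_Ico] at hl
      exact (dep_zz S φ l).mono (by omega) z w
    have ez := eg_zz (φ := φ) hS hkK
    have e1 : (fun (z : ι → ℝ) (_ : X) => (∑ l ∈ Finset.Ico a (k + 1), zz S φ l z) ^ 2) =
        fun z _ => (M z ^ 2 + 2 * (M z * zz S φ k z)) + zz S φ k z ^ 2 := by
      funext z _
      rw [Finset.sum_Ico_succ_top hak]
      simp only [hM]
      ring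
    rw [e1, hS.Ex_add (Nh.add (Nh.fst (eM.pow 2)) (Nh.const_mul _ (Nh.fst (eM.mul ez))))
      (Nh.fst (ez.pow 2)), hS.Ex_add (Nh.fst (eM.pow 2)) (Nh.const_mul _ (Nh.fst (eM.mul ez))),
      Sy.Ex_const_mul, Ex_zz F hkK eM dM]
    have h2 := Ex_zz_sq F hkK
    have h3 : S.Ex (fun z _ => M z ^ 2) ≤
        1 / 2 * (S.Ex (fun z _ => yy S φ k z ^ 2) - S.Ex (fun z _ => yy S φ a z ^ 2)) := ih
    linarith

lemma yy_le_pair (F : FldP S D φ zc s P) {l : ℕ} (hl : l ≤ S.K) :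
    S.Ex (fun z _ => yy S φ l z ^ 2) ≤ (N : ℝ) ^ 2 * Th S φ l := by
  have hS := F.hreg
  have hN := F.N_pos
  rw [Th, Sy.pairEx, ← Sy.Ex_const_mul]
  refine hS.Ex_mono (Nh.fst ((eg_yy hS hl).pow 2)) (Nh.const_mul _ (Nh.fst (hS.nh_pair hl _)))
    fun z _ => ?_
  have h1 := hS.pair_cs hl (Rov φ) z
  rw [← Fld.sum_mg_sq hS hl z] at h1
  have e : yy S φ l z ^ 2 = (N : ℝ) ^ 2 * (1 / N * ∑ i, S.mg φ l i z ^ 2) ^ 2 := by
    rw [yy]
    field_simp
  rw [e]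
  exact mul_le_mul_of_nonneg_left h1 (by positivity)

lemma q2_pair (F : FldP S D φ zc s P) {l : ℕ} (hl : l ≤ S.K) :
    S.Ex (fun z _ => q2 S φ l z) = (N : ℝ) ^ 2 * Th S φ l := by
  have hN := F.N_pos
  rw [Th, F.pairEx_Rov_sq hl]
  have e : (fun (z : ι → ℝ) (_ : X) => ∑ a, ∑ b, S.T l (fun _ x => φ x a * φ x b) z *
      S.T l (fun _ x => φ x a * φ x b) z) = fun z _ => q2 S φ l z := by
    funext z _
    refine Finset.sum_congr rfl fun a _ => Finset.sum_congr rfl fun b _ => ?_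
    rw [A2, sq]
  rw [e]
  field_simp

/-- (M): the increments are square summable with the second moment of the overlap at the end. -/
theorem sum_incr (F : FldP S D φ zc s P) {a b : ℕ} (hab : a ≤ b) (hb : b ≤ S.K) :
    ∑ l ∈ Finset.Ico a b, S.Ex (fun z x => (uu S φ (l + 1) z x - uu S φ l z x) ^ 2) ≤
      5 / 2 * Th S φ b := by
  have hS := F.hreg
  have hN := F.N_pos
  have hlK : ∀ l ∈ Finset.Ico a b, l < S.K := fun l hl => by
    rw [Finset.mem_Ico] at hl; omega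
  set Sd : (ι → ℝ) → ℝ := fun z => ∑ l ∈ Finset.Ico a b, dd S φ l z with hSd
  have eSd : EG Sd := EG.sum _ fun l hl => eg_dd hS (hlK l hl)
  have eq1 := eg_q1 (φ := φ) hS hb
  have h1 : ∑ l ∈ Finset.Ico a b, S.Ex (fun z x => (uu S φ (l + 1) z x - uu S φ l z x) ^ 2) ≤
      1 / (N : ℝ) ^ 2 * S.Ex (fun z _ => q1 S φ b z * Sd z) := by
    have e1 : (fun (z : ι → ℝ) (_ : X) => q1 S φ b z * Sd z) =
        fun z _ => ∑ l ∈ Finset.Ico a b, q1 S φ b z * dd S φ l z := by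
      funext z _
      rw [← Finset.mul_sum]
    rw [e1, hS.Ex_sum _ fun l hl => Nh.fst (eq1.mul (eg_dd hS (hlK l hl))), Finset.mul_sum]
    refine Finset.sum_le_sum fun l hl => ?_
    rw [Finset.mem_Ico] at hl
    exact incr_le F hl.2 hb
  -- the quadratic variation
  set M : (ι → ℝ) → ℝ := fun z => ∑ l ∈ Finset.Ico a b, zz S φ l z with hM
  have eM : EG M := EG.sum _ fun l hl => eg_zz hS (hlK l hl)
  have hy : ∀ z, yy S φ b z = yy S φ a z + 2 * M z + Sd z := by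
    intro z
    have : ∀ k, a ≤ k → yy S φ k z = yy S φ a z + 2 * (∑ l ∈ Finset.Ico a k, zz S φ l z) +
        ∑ l ∈ Finset.Ico a k, dd S φ l z := by
      intro k hk
      induction k, hk using Nat.le_induction with
      | base => simp
      | succ k hk ih =>
        rw [Finset.sum_Ico_succ_top hk, Finset.sum_Ico_succ_top hk, yy_succ, ih]
        ring
    exact this b hab
  have hSd0 : ∀ z, 0 ≤ Sd z := fun z => Finset.sum_nonneg fun l _ => dd_nonneg l z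
  have h2 : S.Ex (fun z _ => Sd z ^ 2) ≤ 6 * ((N : ℝ) ^ 2 * Th S φ b) := by
    have h3 : S.Ex (fun z _ => Sd z ^ 2) ≤
        S.Ex (fun z _ => 2 * yy S φ b z ^ 2 + 8 * M z ^ 2) := by
      refine hS.Ex_mono (Nh.fst (eSd.pow 2)) (Nh.add (Nh.const_mul _ (Nh.fst ((eg_yy hS hb).pow 2)))
        (Nh.const_mul _ (Nh.fst (eM.pow 2)))) fun z _ => ?_
      have h4 := hy z
      have h5 := yy_nonneg (S := S) (φ := φ) a z
      have h6 := yy_nonneg (S := S) (φ := φ) b z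
      have h7 := hSd0 z
      have h8 : Sd z ≤ yy S φ b z + 2 * |M z| := by
        have := neg_abs_le (M z)
        linarith
      have h9 : Sd z ^ 2 ≤ (yy S φ b z + 2 * |M z|) ^ 2 := pow_le_pow_left₀ h7 h8 2
      have h10 : |M z| ^ 2 = M z ^ 2 := sq_abs _
      nlinarith [sq_nonneg (yy S φ b z - 2 * |M z|), abs_nonneg (M z)]
    rw [hS.Ex_add (Nh.const_mul _ (Nh.fst ((eg_yy hS hb).pow 2)))
        (Nh.const_mul _ (Nh.fst (eM.pow 2))), Sy.Ex_const_mul, Sy.Ex_const_mul] at h3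
    have h11 := Ex_sum_zz F b hab hb
    have h12 := yy_le_pair F hb
    have h13 : 0 ≤ S.Ex (fun z _ => yy S φ a z ^ 2) := by
      rw [← hS.Ex_const 0]
      exact hS.Ex_mono (nh_c 0) (Nh.fst ((eg_yy hS (hab.trans hb)).pow 2)) fun z _ => sq_nonneg _
    have h14 : S.Ex (fun z _ => M z ^ 2) ≤
      1 / 2 * (S.Ex (fun z _ => yy S φ b z ^ 2) - S.Ex (fun z _ => yy S φ a z ^ 2)) := h11
    linarith
  have h15 : S.Ex (fun z _ => q1 S φ b z * Sd z) ≤ 5 / 2 * ((N : ℝ) ^ 2 * Th S φ b) := by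
    have h16 : S.Ex (fun z _ => q1 S φ b z * Sd z) ≤
        S.Ex (fun z _ => 1 * q2 S φ b z + 1 / 4 * Sd z ^ 2) := by
      refine hS.Ex_mono (Nh.fst (eq1.mul eSd)) (Nh.add (Nh.const_mul _ (Nh.fst (eg_q2 hS hb)))
        (Nh.const_mul _ (Nh.fst (eSd.pow 2)))) fun z _ => ?_
      rw [← q1_sq]
      nlinarith [sq_nonneg (q1 S φ b z - 1 / 2 * Sd z)]
    rw [hS.Ex_add (Nh.const_mul _ (Nh.fst (eg_q2 hS hb))) (Nh.const_mul _ (Nh.fst (eSd.pow 2))),
      Sy.Ex_const_mul, Sy.Ex_const_mul, q2_pair F hb] at h16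
    linarith
  refine h1.trans ((mul_le_mul_of_nonneg_left h15 (by positivity)).trans (le_of_eq ?_))
  field_simp

end Vale.Agent.P146.H295
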