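import Vale.Agent.P146.H295.GPpl
import Vale.Agent.P146.H186.SkI

set_option linter.all false

/-!
Concentration at a good level of a bundle, for the SK system with `K` levels.
-/

open MeasureTheory ProbabilityTheory

namespace Vale.Agent.P146.H295

open Vale.Agent.P157.Lv Vale.Agent.P157.Lv.Sy Vale.Agent.P146.H425
open Vale.Agent.P157.Lv.Fld (uu nh_uu mg_eq eg_mg dep_mg sum_mg_sq Ex_mg_mul)
open Vale.Agent.P146.H93 (Cd st am aSK skS Em linS_sk)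
open Vale.Agent.P146.H186 (gSK wc)

variable {n K : ℕ} {m b w : ℕ → ℝ} {P : ℕ → Prop}

/-- the spins -/
noncomputable abbrev spn (n : ℕ) : (Fin n → ℤˣ) → Fin n → ℝ := fun x i => H325.sp x i

/-- the coordinates of the field of the level `p` (meaningful for `1 ≤ p ≤ K`) -/
def zs (hK : 0 < K) (p : ℕ) (i : Fin n) : Cd n K := (Sum.inr i, ⟨(p - 1) % K, Nat.mod_lt _ hK⟩)

lemma zs_eq (hK : 0 < K) {p : ℕ} (hp : 1 ≤ p ∧ p ≤ K) (i : Fin n) : zs hK p i = wc hp i := by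
  unfold zs wc
  congr 1
  apply Fin.ext
  show (p - 1) % K = p - 1
  exact Nat.mod_eq_of_lt (by omega)

lemma zs_inj (hK : 0 < K) (p : ℕ) : Function.Injective (zs (n := n) hK p) := by
  intro i j h
  unfold zs at h
  simpa using h

/-- the fields of the SK system -/
theorem fldP_sk (hn : 0 < n) (hK : 0 < K) (hm : Em K m) (b w : ℕ → ℝ)
    (hP : ∀ p, P p → 1 ≤ p) :
    FldP (skS n K m b w) (fun e _ x => aSK n K b w x e) (spn n) (zs hK) w P where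
  reg := H93.regD (linS_sk hm b w)
  N0 := hn
  norm := fun x => by
    have e : ∀ k, H325.sp x k ^ 2 = 1 := fun k => H325.sp_sq x k
    simp only [e]
    simp
  lev := fun l hl hPl i => by
    rw [zs_eq hK ⟨hP l hPl, hl⟩]
    exact H186.wc_lev ⟨hP l hPl, hl⟩ i
  D := fun l hl hPl i z x => by
    show aSK n K b w x (zs hK l i) = w l * H325.sp x i
    rw [zs_eq hK ⟨hP l hPl, hl⟩]
    exact H186.aSK_wc ⟨hP l hPl, hl⟩ x i

/-- the deficit Gram matrix of the SK system is positive semidefinite -/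
theorem gp_sk (hn : 0 < n) (hK : 0 < K) (hm : Em K m) (b w : ℕ → ℝ)
    (hP : ∀ p, P p → 1 ≤ p) (hw : ∀ p ≤ K, P p → 0 < w p) :
    GP (skS n K m b w) (spn n) (zs hK) w P :=
  gp_of_lin (linS_sk hm b w) (gSK n K b w) (fldP_sk hn hK hm b w hP) (fun p _ _ => zs_inj hK p) hw
    fun p hp hPp i x => by
      rw [zs_eq hK ⟨hP p hPp, hp⟩]
      exact H186.aSK_wc ⟨hP p hPp, hp⟩ x i

/-- **Concentration at a good level of a bundle, SK system.** -/
theorem conc_sk (hn : 0 < n) (hK : 0 < K) (hm : Em K m) {a c : ℕ} (ha : 1 ≤ a) (hac : a < c)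
    (hc : c < K) (hw : ∀ p, a ≤ p → p ≤ c + 1 → 0 < w p) {π γ : ℝ} (hπ : 0 < π)
    (hp : ∀ l, a ≤ l → l ≤ c → π ≤ m (l + 1) - m l)
    (hγ : ∀ l, a ≤ l → l ≤ c + 1 → gg (skS n K m b w) (spn n) (zs hK) w l l ≤ γ) :
    ∃ l, a ≤ l ∧ l < c ∧
      (skS n K m b w).pairEx l (fun x x' => (Rov (spn n) x x' - (skS n K m b w).Rl (spn n) l) ^ 2) +
      2 * ((skS n K m b w).Rl (spn n) (l + 1) - (skS n K m b w).Rl (spn n) l) ^ 2 ≤
      5 * Th (skS n K m b w) (spn n) c / (c - a) + 20 * γ / π ^ 2 := by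
  set P : ℕ → Prop := fun l => a ≤ l ∧ l ≤ c + 1 with hPd
  have hP1 : ∀ p, P p → 1 ≤ p := fun p h => ha.trans h.1
  have hw' : ∀ p ≤ K, P p → 0 < w p := fun p _ h => hw p h.1 h.2
  exact conc (fldP_sk hn hK hm b w hP1) (fun p _ _ => zs_inj hK p) hw'
    (gp_sk hn hK hm b w hP1 hw') hac hc (fun l h1 h2 => ⟨h1, h2⟩) hπ hp hγ

/-- **Concentration on a bundle, summed form, SK system.** -/
theorem conc_sum_sk (hn : 0 < n) (hK : 0 < K) (hm : Em K m) {a c : ℕ} (ha : 1 ≤ a) (hac : a ≤ c)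
    (hc : c < K) (hw : ∀ p, a ≤ p → p ≤ c + 1 → 0 < w p) {π γ : ℝ} (hπ : 0 < π)
    (hp : ∀ l, a ≤ l → l ≤ c → π ≤ m (l + 1) - m l)
    (hγ : ∀ l, a ≤ l → l ≤ c + 1 → gg (skS n K m b w) (spn n) (zs hK) w l l ≤ γ) :
    ∑ l ∈ Finset.Ico a c, ((skS n K m b w).pairEx l
      (fun x x' => (Rov (spn n) x x' - (skS n K m b w).Rl (spn n) l) ^ 2) +
      2 * ((skS n K m b w).Rl (spn n) (l + 1) - (skS n K m b w).Rl (spn n) l) ^ 2) ≤
      5 * Th (skS n K m b w) (spn n) c + 20 * (c - a : ℝ) * γ / π ^ 2 := by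
  set P : ℕ → Prop := fun l => a ≤ l ∧ l ≤ c + 1 with hPd
  have hP1 : ∀ p, P p → 1 ≤ p := fun p h => ha.trans h.1
  have hw' : ∀ p ≤ K, P p → 0 < w p := fun p _ h => hw p h.1 h.2
  exact conc_sum (fldP_sk hn hK hm b w hP1) (fun p _ _ => zs_inj hK p) hw'
    (gp_sk hn hK hm b w hP1 hw') hac hc (fun l h1 h2 => ⟨h1, h2⟩) hπ hp hγ

end Vale.Agent.P146.H295
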