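import Vale.Agent.P146.H295.Conc

set_option linter.all false

/-!
The cube of the overlap: `E |R³ - ρ³| ≤ 3 (E (R - ρ)²)^(1/2) (E R⁴)^(1/2)` for pairs splitting at
the level `l`.
-/

open MeasureTheory ProbabilityTheory

namespace Vale.Agent.P146.H295

open Vale.Agent.P157.Lv Vale.Agent.P157.Lv.Sy
open Vale.Agent.P157.Lv.Fld (uu nh_uu mg_eq eg_mg dep_mg sum_mg_sq Ex_mg_mul)

variable {ι X : Type} [Fintype ι] [DecidableEq ι] [Fintype X] [DecidableEq X] [Nonempty X]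
  {S : Sy ι X} {D : ι → (ι → ℝ) → X → ℝ} {N : ℕ}
  {φ : X → Fin N → ℝ} {zc : ℕ → Fin N → ι} {s : ℕ → ℝ} {P : ℕ → Prop}

/-- Cauchy-Schwarz for pairs -/
lemma pair_cs2 (hS : S.Reg) {l : ℕ} (hl : l ≤ S.K) (f g : X → X → ℝ) :
    S.pairEx l (fun x x' => |f x x' * g x x'|) ≤
      √(S.pairEx l (fun x x' => f x x' ^ 2)) * √(S.pairEx l (fun x x' => g x x' ^ 2)) := by
  have hA : 0 ≤ S.pairEx l (fun x x' => f x x' ^ 2) := hS.pairEx_nonneg hl fun x x' => sq_nonneg _
  have hB : 0 ≤ S.pairEx l (fun x x' => g x x' ^ 2) := hS.pairEx_nonneg hl fun x x' => sq_nonneg _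
  set A := S.pairEx l (fun x x' => f x x' ^ 2) with hAd
  set B := S.pairEx l (fun x x' => g x x' ^ 2) with hBd
  have key : ∀ t : ℝ, 0 < t → S.pairEx l (fun x x' => |f x x' * g x x'|) ≤
      t / 2 * A + 1 / (2 * t) * B := by
    intro t ht
    have h1 : S.pairEx l (fun x x' => |f x x' * g x x'|) ≤
        S.pairEx l (fun x x' => t / 2 * f x x' ^ 2 + 1 / (2 * t) * g x x' ^ 2) := by
      refine hS.pairEx_mono hl fun x x' => ?_
      have h2 : 0 ≤ (t * |f x x'| - |g x x'|) ^ 2 := sq_nonneg _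
      rw [abs_mul, ← sq_abs (f x x'), ← sq_abs (g x x')]
      have h3 : t / 2 * |f x x'| ^ 2 + 1 / (2 * t) * |g x x'| ^ 2 - |f x x'| * |g x x'| =
          (t * |f x x'| - |g x x'|) ^ 2 / (2 * t) := by
        field_simp
        ring
      have h4 : 0 ≤ (t * |f x x'| - |g x x'|) ^ 2 / (2 * t) := by positivity
      linarith
    rw [hS.pairEx_add hl (fun x x' => t / 2 * f x x' ^ 2) (fun x x' => 1 / (2 * t) * g x x' ^ 2),
      hS.pairEx_const_mul, hS.pairEx_const_mul] at h1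
    exact h1
  rcases eq_or_lt_of_le hA with h0 | h0
  · -- A = 0
    rw [← h0, Real.sqrt_zero, zero_mul]
    by_contra hc
    push Not at hc
    set I := S.pairEx l (fun x x' => |f x x' * g x x'|) with hI
    have h1 := key ((B + 1) / I) (by positivity)
    rw [← h0] at h1
    have h3 : 1 / (2 * ((B + 1) / I)) * B = I * (B / (2 * (B + 1))) := by
      field_simp
    rw [h3, mul_zero, zero_add] at h1
    have h4 : B / (2 * (B + 1)) ≤ 1 / 2 := by
      rw [div_le_div_iff₀ (by positivity) (by norm_num)]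
      linarith
    nlinarith
  · rcases eq_or_lt_of_le hB with h00 | h00
    · rw [← h00, Real.sqrt_zero, mul_zero]
      by_contra hc
      push Not at hc
      set I := S.pairEx l (fun x x' => |f x x' * g x x'|) with hI
      have h1 := key (I / A) (by positivity)
      rw [← h00] at h1
      have h3 : I / A / 2 * A = I / 2 := by field_simp
      rw [h3, mul_zero, add_zero] at h1
      linarith
    · have h1 := key (√B / √A) (by positivity)
      have sA : √A * √A = A := Real.mul_self_sqrt hA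
      have sB : √B * √B = B := Real.mul_self_sqrt hB
      have pA : 0 < √A := Real.sqrt_pos.mpr h0
      have pB : 0 < √B := Real.sqrt_pos.mpr h00
      have e1 : √B / √A / 2 * A = √A * √B / 2 := by
        nth_rewrite 2 [← sA]
        field_simp
      have e2 : 1 / (2 * (√B / √A)) * B = √A * √B / 2 := by
        nth_rewrite 2 [← sB]
        field_simp
      rw [e1, e2] at h1
      linarith

/-- Jensen for pairs -/
lemma pair_sq_le (hS : S.Reg) {l : ℕ} (hl : l ≤ S.K) (f : X → X → ℝ) :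
    S.pairEx l f ^ 2 ≤ S.pairEx l (fun x x' => f x x' ^ 2) := by
  have h1 := hS.pairEx_abs_le hl f
  have h2 : |S.pairEx l f| ≤ S.pairEx l (fun x x' => |f x x'|) := by
    rw [abs_le]
    constructor
    · have h3 := hS.pairEx_mono hl (ψ := fun x x' => (-1) * |f x x'|) (ψ' := f) fun x x' => by
        have := neg_abs_le (f x x'); linarith
      rw [hS.pairEx_const_mul] at h3
      linarith
    · exact hS.pairEx_mono hl fun x x' => le_abs_self _
  have h0 : 0 ≤ S.pairEx l (fun x x' => f x x' ^ 2) := hS.pairEx_nonneg hl fun x x' => sq_nonneg _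
  rw [← sq_abs]
  calc |S.pairEx l f| ^ 2 ≤ √(S.pairEx l (fun x x' => f x x' ^ 2)) ^ 2 :=
        pow_le_pow_left₀ (abs_nonneg _) (h2.trans h1) 2
    _ = _ := Real.sq_sqrt h0

/-- **the cube of the overlap** -/
theorem cub (F : FldP S D φ zc s P) {l : ℕ} (hl : l ≤ S.K) :
    S.pairEx l (fun x x' => |Rov φ x x' ^ 3 - S.Rl φ l ^ 3|) ≤
      3 * (√(S.pairEx l (fun x x' => (Rov φ x x' - S.Rl φ l) ^ 2)) *
        √(S.pairEx l (fun x x' => Rov φ x x' ^ 4))) := by
  have hS := F.hreg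
  set ρ := S.Rl φ l with hρ
  have hρ1 : ρ = S.pairEx l (Rov φ) := F.Rl_eq_pairEx hl
  have h4 : ρ ^ 4 ≤ S.pairEx l (fun x x' => Rov φ x x' ^ 4) := by
    have h1 := pair_sq_le hS hl (Rov φ)
    have h2 := pair_sq_le hS hl (fun x x' => Rov φ x x' ^ 2)
    rw [← hρ1] at h1
    have h3 : (ρ ^ 2) ^ 2 ≤ S.pairEx l (fun x x' => Rov φ x x' ^ 2) ^ 2 :=
      pow_le_pow_left₀ (sq_nonneg _) h1 2
    have e1 : (fun x x' => (Rov φ x x' ^ 2) ^ 2) = fun x x' => Rov φ x x' ^ 4 := by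
      funext x x'
      ring
    rw [e1] at h2
    calc ρ ^ 4 = (ρ ^ 2) ^ 2 := by ring
      _ ≤ _ := h3.trans h2
  have h5 : S.pairEx l (fun x x' => (Rov φ x x' ^ 2 + Rov φ x x' * ρ + ρ ^ 2) ^ 2) ≤
      3 ^ 2 * S.pairEx l (fun x x' => Rov φ x x' ^ 4) := by
    have h6 : S.pairEx l (fun x x' => (Rov φ x x' ^ 2 + Rov φ x x' * ρ + ρ ^ 2) ^ 2) ≤
        S.pairEx l (fun x x' => 9 / 2 * Rov φ x x' ^ 4 + 9 / 2 * ρ ^ 4) := by
      refine hS.pairEx_mono hl fun x x' => ?_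
      nlinarith [sq_nonneg (Rov φ x x' ^ 2 - Rov φ x x' * ρ), sq_nonneg (Rov φ x x' * ρ - ρ ^ 2),
        sq_nonneg (Rov φ x x' ^ 2 - ρ ^ 2)]
    rw [hS.pairEx_add hl (fun x x' => 9 / 2 * Rov φ x x' ^ 4) (fun _ _ => 9 / 2 * ρ ^ 4),
      hS.pairEx_const_mul, hS.pairEx_const hl] at h6
    linarith
  have h7 := pair_cs2 hS hl (fun x x' => Rov φ x x' - ρ)
    (fun x x' => Rov φ x x' ^ 2 + Rov φ x x' * ρ + ρ ^ 2)
  have e1 : (fun x x' => |(Rov φ x x' - ρ) * (Rov φ x x' ^ 2 + Rov φ x x' * ρ + ρ ^ 2)|) =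
      fun x x' => |Rov φ x x' ^ 3 - ρ ^ 3| := by
    funext x x'
    congr 1
    ring
  rw [e1] at h7
  refine h7.trans ?_
  have h8 : √(S.pairEx l (fun x x' => (Rov φ x x' ^ 2 + Rov φ x x' * ρ + ρ ^ 2) ^ 2)) ≤
      3 * √(S.pairEx l (fun x x' => Rov φ x x' ^ 4)) := by
    refine (Real.sqrt_le_sqrt h5).trans (le_of_eq ?_)
    rw [Real.sqrt_mul (by positivity), Real.sqrt_sq (by norm_num)]
  calc _ ≤ √(S.pairEx l (fun x x' => (Rov φ x x' - ρ) ^ 2)) *
        (3 * √(S.pairEx l (fun x x' => Rov φ x x' ^ 4))) :=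
        mul_le_mul_of_nonneg_left h8 (Real.sqrt_nonneg _)
    _ = _ := by ring

end Vale.Agent.P146.H295
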