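import Vale.Agent.P146.Bdl.B2

set_option linter.all false

/-!
Layered systems with white fields on SOME of the levels (the levels `l` with `P l`).  Copy of the
identities of `Fld` (`Vale/Agent/P146/Bdl/B2.lean`), where the fields sit on all the levels.
-/

open MeasureTheory ProbabilityTheory

namespace Vale.Agent.P146.H295

open Vale.Agent.P157.Lv Vale.Agent.P157.Lv.Sy
open Vale.Agent.P157.Lv.Fld (uu nh_uu mg_eq eg_mg dep_mg sum_mg_sq Ex_mg_mul)

variable {ι X : Type} [Fintype ι] [DecidableEq ι] [Fintype X] [DecidableEq X] [Nonempty X]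
  {S : Sy ι X} {D : ι → (ι → ℝ) → X → ℝ} {N : ℕ}

/-- The system contains the fields `s_l ∑_i z_{l,i} φ_i(x)` for the levels `l` with `P l`. -/
structure FldP (S : Sy ι X) (D : ι → (ι → ℝ) → X → ℝ) (φ : X → Fin N → ℝ) (zc : ℕ → Fin N → ι)
    (s : ℕ → ℝ) (P : ℕ → Prop) : Prop where
  reg : S.RegD D
  N0 : 0 < N
  norm : ∀ x, ∑ i, φ x i ^ 2 = N
  lev : ∀ l ≤ S.K, P l → ∀ i, S.lev (zc l i) = l
  D : ∀ l ≤ S.K, P l → ∀ i z x, D (zc l i) z x = s l * φ x i

namespace FldP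

variable {φ : X → Fin N → ℝ} {zc : ℕ → Fin N → ι} {s : ℕ → ℝ} {P : ℕ → Prop}
  (F : FldP S D φ zc s P)

include F

lemma N_pos : (0 : ℝ) < N := by exact_mod_cast F.N0

lemma hreg : S.Reg := F.reg.toReg

lemma abs_Rov_le (x x' : X) : |Rov φ x x'| ≤ 1 := by
  have hN := F.N_pos
  have h := Finset.sum_mul_sq_le_sq_mul_sq Finset.univ (φ x) (φ x')
  rw [F.norm, F.norm] at h
  have h1 : Rov φ x x' ^ 2 ≤ 1 := by
    rw [Rov, mul_pow, one_div, inv_pow, inv_mul_le_iff₀ (by positivity)]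
    linarith [sq (N : ℝ)]
  exact abs_le_one_iff_mul_self_le_one.mpr (by linarith [sq (Rov φ x x')])

lemma Rl_eq_pairEx {l : ℕ} (hl : l ≤ S.K) : S.Rl φ l = S.pairEx l (Rov φ) := by
  rw [Sy.Rl, Sy.pairEx, ← Sy.Ex_const_mul]
  congr 1
  funext z _
  exact sum_mg_sq F.hreg hl z

lemma Rl_nonneg {l : ℕ} (hl : l ≤ S.K) : 0 ≤ S.Rl φ l := by
  rw [Sy.Rl, ← Sy.Ex_const_mul, ← F.hreg.Ex_const 0]
  refine F.hreg.Ex_mono (Nh.fst (EG.const 0)) (Nh.fst (EG.const_mul _ (EG.sum _ fun i _ =>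
    (eg_mg F.hreg hl i).pow 2))) fun z _ => ?_
  have := F.N_pos
  positivity

lemma Rl_le_one {l : ℕ} (hl : l ≤ S.K) : S.Rl φ l ≤ 1 := by
  rw [F.Rl_eq_pairEx hl, ← F.hreg.pairEx_const hl 1]
  exact F.hreg.pairEx_mono hl fun x x' => (le_abs_self _).trans (F.abs_Rov_le x x')

lemma Ex_uu {l : ℕ} (hl : l ≤ S.K) : S.Ex (uu S φ l) = S.Rl φ l := by
  have hS := F.hreg
  have e : uu S φ l = fun z x => 1 / N * ∑ a, S.mg φ l a z * φ x a := rfl
  rw [e, Sy.Ex_const_mul, Sy.Rl, hS.Ex_sum _ fun a _ =>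
    Nh.mul (Nh.fst (eg_mg hS hl a)) (Nh.snd fun x => φ x a),
    hS.Ex_sum _ fun a _ => Nh.fst ((eg_mg hS hl a).pow 2)]
  congr 1
  refine Finset.sum_congr rfl fun a _ => ?_
  have h2 := hS.Ex_mul_T hl (S.dep_T l (fun _ x => φ x a)) (eg_mg hS hl a)
    (Nh.snd fun x => φ x a)
  rw [← Ex_mg_mul hS le_rfl hl]
  exact h2.symm

/-- The overlaps increase: `E|m_{l+1} - m_l|² = N (R_{l+1} - R_l)`. -/
lemma Rl_sub {l : ℕ} (hl : l < S.K) :
    1 / N * S.Ex (fun z _ => ∑ i, (S.mg φ (l + 1) i z - S.mg φ l i z) ^ 2) =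
      S.Rl φ (l + 1) - S.Rl φ l := by
  have hS := F.hreg
  have e1 := eg_mg (φ := φ) hS (l := l + 1) hl
  have e0 := eg_mg (φ := φ) hS (l := l) hl.le
  rw [Sy.Rl, Sy.Rl, ← mul_sub]
  congr 1
  rw [hS.Ex_sum _ fun i _ => Nh.fst (((e1 i).sub (e0 i)).pow 2),
    hS.Ex_sum _ fun i _ => Nh.fst ((e1 i).pow 2), hS.Ex_sum _ fun i _ => Nh.fst ((e0 i).pow 2),
    ← Finset.sum_sub_distrib]
  refine Finset.sum_congr rfl fun i _ => ?_
  have h1 : (fun (z : ι → ℝ) (_ : X) => (S.mg φ (l + 1) i z - S.mg φ l i z) ^ 2) =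
      fun z x => ((fun (z : ι → ℝ) (_ : X) => S.mg φ (l + 1) i z ^ 2) z x -
        (fun (z : ι → ℝ) (_ : X) => 2 * (S.mg φ l i z * S.mg φ (l + 1) i z)) z x) +
        (fun (z : ι → ℝ) (_ : X) => S.mg φ l i z ^ 2) z x := by
    funext z _
    ring
  rw [h1, hS.Ex_add (Nh.sub (Nh.fst ((e1 i).pow 2))
    (Nh.fst (EG.const_mul 2 ((e0 i).mul (e1 i))))) (Nh.fst ((e0 i).pow 2)),
    hS.Ex_sub (Nh.fst ((e1 i).pow 2)) (Nh.fst (EG.const_mul 2 ((e0 i).mul (e1 i)))),
    Sy.Ex_const_mul, Ex_mg_mul hS (Nat.le_succ l) hl]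
  ring

/-- integration by parts for the coordinates of the fields -/
lemma ibp' {j : ℕ} (hj : j ≤ S.K) (hPj : P j) (i : Fin N) {h h' : (ι → ℝ) → X → ℝ}
    (hd : ∀ x, PD (zc j i) (fun z => h z x) (fun z => h' z x)) (hh : Nh h) (hh' : Nh h') :
    S.Ex (fun z x => z (zc j i) * h z x) = S.Ex (fun z x => h' z x + h z x * (s j * φ x i -
      ∑ k ∈ Finset.Ico j (S.K + 1), S.p k * (s j * S.mg φ k i z))) := by
  rw [F.reg.ibp (zc j i) hd hh hh', F.lev j hj hPj i]
  congr 1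
  funext z x
  rw [F.D j hj hPj i]
  have e : D (zc j i) = fun z x => s j * φ x i := by
    funext z x
    exact F.D j hj hPj i z x
  rw [e]
  simp only [Sy.T_const_mul]
  rfl

/-- the average of the field of the level `j` against an observable -/
lemma Ex_hz_mul {j : ℕ} (hj : j ≤ S.K) (hPj : P j) {u : (ι → ℝ) → X → ℝ} {u' : Fin N → (ι → ℝ) → X → ℝ}
    (hd : ∀ i x, PD (zc j i) (fun z => u z x) (fun z => u' i z x)) (hu : Nh u)
    (hu' : ∀ i, Nh (u' i)) :
    S.Ex (fun z x => hz φ zc j z x * u z x) =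
      S.Ex (fun z x => 1 / N * ∑ i, φ x i * u' i z x) +
        s j * (S.Ex u - ∑ k ∈ Finset.Ico j (S.K + 1), S.p k *
          S.Ex (fun z x => u z x * uu S φ k z x)) := by
  have hS := F.hreg
  have hN := F.N_pos
  have hk : ∀ k ∈ Finset.Ico j (S.K + 1), k ≤ S.K := fun k hk => by
    rw [Finset.mem_Ico] at hk; omega
  -- termwise integration by parts
  have h1 : ∀ i, S.Ex (fun z x => z (zc j i) * (φ x i * u z x)) =
      S.Ex (fun z x => φ x i * u' i z x + φ x i * u z x * (s j * φ x i -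
        ∑ k ∈ Finset.Ico j (S.K + 1), S.p k * (s j * S.mg φ k i z))) := fun i =>
    F.ibp' hj hPj i (h := fun z x => φ x i * u z x) (h' := fun z x => φ x i * u' i z x)
      (fun x => (hd i x).const_mul (φ x i)) (Nh.mul (Nh.snd fun x => φ x i) hu)
      (Nh.mul (Nh.snd fun x => φ x i) (hu' i))
  have nz : ∀ i, Nh (fun (z : ι → ℝ) (x : X) => z (zc j i) * (φ x i * u z x)) := fun i =>
    Nh.mul (Nh.fst (EG.coord _)) (Nh.mul (Nh.snd fun x => φ x i) hu)
  have nk : ∀ k ∈ Finset.Ico j (S.K + 1), ∀ i, Nh (fun (z : ι → ℝ) (_ : X) =>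
      S.p k * (s j * S.mg φ k i z)) := fun k hk' i =>
    Nh.fst (EG.const_mul _ (EG.const_mul _ (eg_mg hS (hk k hk') i)))
  have nr : ∀ i, Nh (fun (z : ι → ℝ) (x : X) => φ x i * u' i z x + φ x i * u z x * (s j * φ x i -
        ∑ k ∈ Finset.Ico j (S.K + 1), S.p k * (s j * S.mg φ k i z))) := fun i =>
    Nh.add (Nh.mul (Nh.snd fun x => φ x i) (hu' i)) (Nh.mul (Nh.mul (Nh.snd fun x => φ x i) hu)
      (Nh.sub (Nh.const_mul _ (Nh.snd fun x => φ x i)) (Nh.sum _ fun k hk' => nk k hk' i)))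
  have e1 : S.Ex (fun z x => hz φ zc j z x * u z x) =
      1 / N * ∑ i, S.Ex (fun z x => z (zc j i) * (φ x i * u z x)) := by
    rw [← hS.Ex_sum _ fun i _ => nz i, ← Sy.Ex_const_mul]
    congr 1
    funext z x
    rw [hz, mul_assoc, Finset.sum_mul]
    congr 1
    refine Finset.sum_congr rfl fun i _ => ?_
    ring
  rw [e1]
  simp_rw [h1]
  rw [← hS.Ex_sum _ fun i _ => nr i, ← Sy.Ex_const_mul]
  have e2 : (fun (z : ι → ℝ) (x : X) => 1 / (N : ℝ) * ∑ i, (φ x i * u' i z x +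
      φ x i * u z x * (s j * φ x i -
        ∑ k ∈ Finset.Ico j (S.K + 1), S.p k * (s j * S.mg φ k i z)))) =
      fun z x => (fun (z : ι → ℝ) (x : X) => 1 / (N : ℝ) * ∑ i, φ x i * u' i z x) z x +
        (fun (z : ι → ℝ) (x : X) => s j * (u z x - ∑ k ∈ Finset.Ico j (S.K + 1),
          S.p k * (u z x * uu S φ k z x))) z x := by
    funext z x
    rw [Finset.sum_add_distrib, mul_add]
    congr 1
    have e3 : ∑ i, φ x i * u z x * (s j * φ x i -
        ∑ k ∈ Finset.Ico j (S.K + 1), S.p k * (s j * S.mg φ k i z)) =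
        s j * (u z x * ∑ i, φ x i ^ 2) - s j * ∑ k ∈ Finset.Ico j (S.K + 1), S.p k *
          (u z x * ∑ i, S.mg φ k i z * φ x i) := by
      simp_rw [mul_sub]
      rw [Finset.sum_sub_distrib]
      congr 1
      · rw [Finset.mul_sum, Finset.mul_sum]
        refine Finset.sum_congr rfl fun i _ => ?_
        ring
      · simp_rw [Finset.mul_sum]
        rw [Finset.sum_comm]
        refine Finset.sum_congr rfl fun k _ => Finset.sum_congr rfl fun i _ => ?_
        ring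
    rw [e3, F.norm]
    have e4 : ∀ k, S.p k * (u z x * uu S φ k z x) =
        1 / N * (S.p k * (u z x * ∑ i, S.mg φ k i z * φ x i)) := by
      intro k
      rw [uu]
      ring
    simp_rw [e4]
    rw [← Finset.mul_sum]
    field_simp
  rw [e2]
  have nu : ∀ k ∈ Finset.Ico j (S.K + 1), Nh (fun (z : ι → ℝ) (x : X) =>
      S.p k * (u z x * uu S φ k z x)) := fun k hk' =>
    Nh.const_mul _ (Nh.mul hu (nh_uu hS (hk k hk')))
  rw [hS.Ex_add (Nh.const_mul _ (Nh.sum _ fun i _ => Nh.mul (Nh.snd fun x => φ x i) (hu' i)))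
    (Nh.const_mul _ (Nh.sub hu (Nh.sum _ nu)))]
  congr 1
  rw [Sy.Ex_const_mul, hS.Ex_sub hu (Nh.sum _ nu), hS.Ex_sum _ nu]
  congr 2
  refine Finset.sum_congr rfl fun k _ => ?_
  rw [Sy.Ex_const_mul]

/-- The mean of the field of the level `l`. -/
theorem Ex_hz {l : ℕ} (hl : l ≤ S.K) (hPl : P l) :
    S.Ex (hz φ zc l) = s l * (1 - ∑ i ∈ Finset.Ico l (S.K + 1), S.p i * S.Rl φ i) := by
  have hS := F.hreg
  have h := F.Ex_hz_mul hl hPl (u := fun _ _ => 1) (u' := fun _ _ _ => 0)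
    (fun i x => PD.const 1) (Nh.fst (EG.const 1)) (fun i => Nh.fst (EG.const 0))
  simp only [mul_one, one_mul, mul_zero, Finset.sum_const_zero, hS.Ex_const, zero_add] at h
  rw [show S.Ex (hz φ zc l) = S.Ex (fun z x => hz φ zc l z x) from rfl, h]
  congr 2
  refine Finset.sum_congr rfl fun k hk => ?_
  rw [Finset.mem_Ico] at hk
  rw [← F.Ex_uu (by omega : k ≤ S.K)]

/-- (A): `u_l = m_l · x / N` and `u_i` are uncorrelated for `i > l`. -/
theorem ident_A {l j : ℕ} (hlj : l < j) (hj : j ≤ S.K) (hPj : P j) :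
    S.Ex (fun z x => hz φ zc j z x * (1 / N * ∑ i, S.mg φ l i z * φ x i)) =
      s j * (S.Rl φ l - ∑ i ∈ Finset.Ico j (S.K + 1), S.p i *
        S.Ex (fun z x => (1 / N * ∑ a, S.mg φ l a z * φ x a) *
          (1 / N * ∑ a, S.mg φ i a z * φ x a))) := by
  have hS := F.hreg
  have hl : l ≤ S.K := hlj.le.trans hj
  have hd : ∀ i x, PD (zc j i) (fun z => uu S φ l z x) (fun _ => 0) := by
    intro i x
    refine Dep.pd (lev := S.lev) (l := l) ?_ (by rw [F.lev j hj hPj]; exact hlj)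
    intro z w
    simp only [uu]
    congr 1
    refine Finset.sum_congr rfl fun a _ => ?_
    congr 1
    exact S.dep_T l (fun _ x => φ x a) z w
  have h := F.Ex_hz_mul hj hPj (u := uu S φ l) (u' := fun _ _ _ => 0) hd (nh_uu hS hl)
    (fun i => Nh.fst (EG.const 0))
  simp only [mul_zero, Finset.sum_const_zero, hS.Ex_const, zero_add] at h
  rw [F.Ex_uu hl] at h
  exact h

/-- the derivative of the magnetization -/
lemma pd_mg {l : ℕ} (hl : l ≤ S.K) (hPl : P l) (a b : Fin N) :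
    PD (zc l b) (S.mg φ l a) (fun z => s l * (S.T l (fun _ x => φ x a * φ x b) z -
      ∑ k ∈ Finset.Ico (l + 1) (S.K + 1), S.p k * S.T l (fun z _ => S.mg φ k a z * S.mg φ k b z) z -
      S.m (l + 1) * (S.mg φ l a z * S.mg φ l b z))) := by
  have hS := F.hreg
  have h := F.reg.pd_T hl (e := zc l b) (F.lev l hl hPl b).le (h := fun _ x => φ x a)
    (h' := fun _ _ => 0) (fun x => PD.const _) (Nh.snd fun x => φ x a) (Nh.fst (EG.const 0))
  refine h.congr fun z => ?_
  have hD : D (zc l b) = fun z x => s l * φ x b := by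
    funext z x
    exact F.D l hl hPl b z x
  have hk : ∀ k ∈ Finset.Ico (l + 1) (S.K + 1), k ≤ S.K := fun k hk => by
    rw [Finset.mem_Ico] at hk; omega
  have hlk : ∀ k ∈ Finset.Ico (l + 1) (S.K + 1), l ≤ k := fun k hk => by
    rw [Finset.mem_Ico] at hk; omega
  have na : Nh (ι := ι) (fun _ x => φ x a) := Nh.snd fun x => φ x a
  have nab : Nh (ι := ι) (fun _ x => φ x a * φ x b) := Nh.snd fun x => φ x a * φ x b
  have nk : ∀ k ∈ Finset.Ico (l + 1) (S.K + 1), Nh (fun (z : ι → ℝ) (x : X) =>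
      S.p k * (φ x a * S.mg φ k b z)) := fun k hk' =>
    Nh.const_mul _ (Nh.mul na (Nh.fst (eg_mg hS (hk k hk') b)))
  have nl : Nh (fun (z : ι → ℝ) (x : X) => S.m (l + 1) * (S.mg φ l b z * φ x a)) :=
    Nh.const_mul _ (Nh.mul (Nh.fst (eg_mg hS hl b)) na)
  have e : (fun (z : ι → ℝ) (x : X) => (0 : ℝ) + φ x a * (D (zc l b) z x -
      ∑ i ∈ Finset.Ico (l + 1) (S.K + 1), S.p i * S.T i (D (zc l b)) z -
        S.m (l + 1) * S.T l (D (zc l b)) z)) =
      fun z x => s l * ((φ x a * φ x b - ∑ k ∈ Finset.Ico (l + 1) (S.K + 1),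
        S.p k * (φ x a * S.mg φ k b z)) - S.m (l + 1) * (S.mg φ l b z * φ x a)) := by
    funext z x
    rw [hD]
    simp only [Sy.T_const_mul]
    have e1 : ∀ k, S.T k (fun _ x => φ x b) z = S.mg φ k b z := fun k => rfl
    simp only [e1]
    have e2 : ∑ i ∈ Finset.Ico (l + 1) (S.K + 1), S.p i * (s l * S.mg φ i b z) =
        s l * ∑ i ∈ Finset.Ico (l + 1) (S.K + 1), S.p i * S.mg φ i b z := by
      rw [Finset.mul_sum]
      refine Finset.sum_congr rfl fun i _ => ?_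
      ring
    have e3 : ∑ k ∈ Finset.Ico (l + 1) (S.K + 1), S.p k * (φ x a * S.mg φ k b z) =
        φ x a * ∑ i ∈ Finset.Ico (l + 1) (S.K + 1), S.p i * S.mg φ i b z := by
      rw [Finset.mul_sum]
      refine Finset.sum_congr rfl fun i _ => ?_
      ring
    rw [e2, e3]
    ring
  rw [e, Sy.T_const_mul, hS.T_sub hl (Nh.sub nab (Nh.sum _ nk)) nl,
    hS.T_sub hl nab (Nh.sum _ nk), hS.T_sum hl _ nk, Sy.T_const_mul,
    T_mul_left S (dep_mg S φ l b)]
  congr 2
  · congr 1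
    refine Finset.sum_congr rfl fun k hk' => ?_
    rw [Sy.T_const_mul]
    congr 1
    rw [← hS.T_T (hlk k hk') (hk k hk') (Nh.mul na (Nh.fst (eg_mg hS (hk k hk') b)))]
    congr 1
    funext z' _
    have e4 : (fun (z : ι → ℝ) (x : X) => φ x a * S.mg φ k b z) =
        fun z x => S.mg φ k b z * (fun (_ : ι → ℝ) (x : X) => φ x a) z x := by
      funext z x
      exact mul_comm _ _
    rw [e4, T_mul_left S (dep_mg S φ k b), mul_comm]
    rfl
  · rw [mul_comm (S.mg φ l a z)]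
    rfl

/-- the covariance matrix of two replicas -/
lemma pairEx_Rov_sq {l : ℕ} (hl : l ≤ S.K) :
    S.pairEx l (fun x x' => Rov φ x x' ^ 2) = 1 / N ^ 2 * S.Ex (fun z _ => ∑ a, ∑ b,
      S.T l (fun _ x => φ x a * φ x b) z * S.T l (fun _ x => φ x a * φ x b) z) := by
  have hS := F.hreg
  rw [Sy.pairEx, ← Sy.Ex_const_mul]
  congr 1
  funext z _
  have e : ∀ a b, S.T l (fun _ x => φ x a * φ x b) z * S.T l (fun _ x => φ x a * φ x b) z =
      ∑ x, ∑ x', S.pr l z x * S.pr l z x' * ((φ x a * φ x b) * (φ x' a * φ x' b)) := by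
    intro a b
    rw [hS.T_pr hl (fun x => φ x a * φ x b), Finset.sum_mul_sum]
    refine Finset.sum_congr rfl fun x _ => Finset.sum_congr rfl fun x' _ => ?_
    ring
  have e2 : ∀ x x', Rov φ x x' ^ 2 =
      1 / (N : ℝ) ^ 2 * ∑ a, ∑ b, (φ x a * φ x b) * (φ x' a * φ x' b) := by
    intro x x'
    rw [Rov, mul_pow, sq (∑ i, φ x i * φ x' i), Finset.sum_mul_sum, div_pow, one_pow]
    congr 1
    refine Finset.sum_congr rfl fun a _ => Finset.sum_congr rfl fun b _ => ?_
    ring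
  simp_rw [e, e2]
  have e3 : ∑ a : Fin N, ∑ b : Fin N, ∑ x, ∑ x', S.pr l z x * S.pr l z x' *
      ((φ x a * φ x b) * (φ x' a * φ x' b)) =
      ∑ x, ∑ x', S.pr l z x * S.pr l z x' * ∑ a, ∑ b, (φ x a * φ x b) * (φ x' a * φ x' b) := by
    calc ∑ a : Fin N, ∑ b : Fin N, ∑ x, ∑ x', S.pr l z x * S.pr l z x' *
          ((φ x a * φ x b) * (φ x' a * φ x' b))
        = ∑ a : Fin N, ∑ x, ∑ b : Fin N, ∑ x', S.pr l z x * S.pr l z x' *
          ((φ x a * φ x b) * (φ x' a * φ x' b)) :=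
          Finset.sum_congr rfl fun a _ => Finset.sum_comm
      _ = ∑ x, ∑ a : Fin N, ∑ b : Fin N, ∑ x', S.pr l z x * S.pr l z x' *
          ((φ x a * φ x b) * (φ x' a * φ x' b)) := Finset.sum_comm
      _ = ∑ x, ∑ x', ∑ a : Fin N, ∑ b : Fin N, S.pr l z x * S.pr l z x' *
          ((φ x a * φ x b) * (φ x' a * φ x' b)) := by
          refine Finset.sum_congr rfl fun x _ => ?_
          calc ∑ a : Fin N, ∑ b : Fin N, ∑ x', S.pr l z x * S.pr l z x' *
                ((φ x a * φ x b) * (φ x' a * φ x' b))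
              = ∑ a : Fin N, ∑ x', ∑ b : Fin N, S.pr l z x * S.pr l z x' *
                ((φ x a * φ x b) * (φ x' a * φ x' b)) :=
                Finset.sum_congr rfl fun a _ => Finset.sum_comm
            _ = _ := Finset.sum_comm
      _ = _ := by
          refine Finset.sum_congr rfl fun x _ => Finset.sum_congr rfl fun x' _ => ?_
          simp_rw [Finset.mul_sum]
  rw [e3, Finset.mul_sum]
  refine Finset.sum_congr rfl fun x _ => ?_
  rw [Finset.mul_sum]
  refine Finset.sum_congr rfl fun x' _ => ?_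
  ring

/-- (B). -/
theorem ident_B {l : ℕ} (hl : l ≤ S.K) (hPl : P l) :
    S.Ex (fun z x => hz φ zc l z x * (1 / N * ∑ i, S.mg φ l i z * φ x i)) =
      s l * (S.pairEx l (fun x x' => Rov φ x x' ^ 2) -
        ∑ i ∈ Finset.Ico (l + 1) (S.K + 1), S.p i * (1 / N ^ 2 * S.Ex (fun z _ => ∑ a, ∑ b,
          S.T l (fun _ x => φ x a * φ x b) z * S.T l (fun z _ => S.mg φ i a z * S.mg φ i b z) z)) -
        S.m (l + 1) * S.Ex (fun z x => (1 / N * ∑ a, S.mg φ l a z * φ x a) ^ 2) +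
        S.Rl φ l - ∑ i ∈ Finset.Ico l (S.K + 1), S.p i *
        S.Ex (fun z x => (1 / N * ∑ a, S.mg φ l a z * φ x a) *
          (1 / N * ∑ a, S.mg φ i a z * φ x a))) := by
  have hS := F.hreg
  have hk : ∀ k ∈ Finset.Ico (l + 1) (S.K + 1), k ≤ S.K := fun k hk => by
    rw [Finset.mem_Ico] at hk; omega
  -- the derivative of the magnetization
  set d : Fin N → Fin N → (ι → ℝ) → ℝ := fun a b z =>
    s l * (S.T l (fun _ x => φ x a * φ x b) z -
      ∑ k ∈ Finset.Ico (l + 1) (S.K + 1), S.p k * S.T l (fun z _ => S.mg φ k a z * S.mg φ k b z) z -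
      S.m (l + 1) * (S.mg φ l a z * S.mg φ l b z)) with hd
  have nab : ∀ a b, Nh (ι := ι) (fun (_ : ι → ℝ) (x : X) => φ x a * φ x b) := fun a b =>
    Nh.snd fun x => φ x a * φ x b
  have eB : ∀ k ∈ Finset.Ico (l + 1) (S.K + 1), ∀ a b,
      EG (S.T l (fun z _ => S.mg φ k a z * S.mg φ k b z)) := fun k hk' a b =>
    hS.eg_T hl (Nh.fst ((eg_mg hS (hk k hk') a).mul (eg_mg hS (hk k hk') b)))
  have eA : ∀ a b, EG (S.T l (fun _ x => φ x a * φ x b)) := fun a b => hS.eg_T hl (nab a b)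
  have ed : ∀ a b, EG (d a b) := fun a b =>
    EG.const_mul _ (((eA a b).sub (EG.sum _ fun k hk' => EG.const_mul _ (eB k hk' a b))).sub
      (EG.const_mul _ ((eg_mg hS hl a).mul (eg_mg hS hl b))))
  have dB : ∀ k a b, Dep S.lev l (S.T l (fun z _ => S.mg φ k a z * S.mg φ k b z)) :=
    fun k a b => S.dep_T l _
  have dA : ∀ a b, Dep S.lev l (S.T l (fun _ x => φ x a * φ x b)) := fun a b => S.dep_T l _
  have dd : ∀ a b, Dep S.lev l (d a b) := by
    intro a b z w
    simp only [hd]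
    rw [dA a b z w, dep_mg S φ l a z w, dep_mg S φ l b z w]
    simp only [fun k => dB k a b z w]
  -- integration by parts
  have h := F.Ex_hz_mul hl hPl (u := uu S φ l) (u' := fun b z x => 1 / N * ∑ a, d a b z * φ x a)
    (fun b x => (PD.sum Finset.univ fun a _ =>
      ((F.pd_mg hl hPl a b).mul (PD.const (φ x a))).congr fun y => by
        rw [mul_zero, add_zero]).const_mul _) (nh_uu hS hl)
    (fun b => Nh.const_mul _ (Nh.sum _ fun a _ => Nh.mul (Nh.fst (ed a b))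
      (Nh.snd fun x => φ x a)))
  have h2 : S.Ex (fun z x => 1 / N * ∑ b, φ x b * (1 / N * ∑ a, d a b z * φ x a)) =
      s l * (S.pairEx l (fun x x' => Rov φ x x' ^ 2) -
        ∑ i ∈ Finset.Ico (l + 1) (S.K + 1), S.p i * (1 / N ^ 2 * S.Ex (fun z _ => ∑ a, ∑ b,
          S.T l (fun _ x => φ x a * φ x b) z * S.T l (fun z _ => S.mg φ i a z * S.mg φ i b z) z)) -
        S.m (l + 1) * S.Ex (fun z x => (1 / N * ∑ a, S.mg φ l a z * φ x a) ^ 2)) := by
    -- replace `φ_a φ_b` by its conditional average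
    have g1 : S.Ex (fun z x => 1 / N * ∑ b, φ x b * (1 / N * ∑ a, d a b z * φ x a)) =
        1 / N ^ 2 * ∑ a, ∑ b, S.Ex (fun z _ => d a b z * S.T l (fun _ x => φ x a * φ x b) z) := by
      have e1 : (fun (z : ι → ℝ) (x : X) => 1 / (N : ℝ) * ∑ b, φ x b *
          (1 / N * ∑ a, d a b z * φ x a)) =
          fun z x => 1 / N ^ 2 * ∑ a, ∑ b, d a b z * (φ x a * φ x b) := by
        funext z x
        simp_rw [Finset.mul_sum]
        rw [Finset.sum_comm]
        refine Finset.sum_congr rfl fun a _ => Finset.sum_congr rfl fun b _ => ?_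
        ring
      rw [e1, Sy.Ex_const_mul, hS.Ex_sum _ fun a _ => Nh.sum _ fun b _ =>
        Nh.mul (Nh.fst (ed a b)) (nab a b)]
      congr 1
      refine Finset.sum_congr rfl fun a _ => ?_
      rw [hS.Ex_sum _ fun b _ => Nh.mul (Nh.fst (ed a b)) (nab a b)]
      refine Finset.sum_congr rfl fun b _ => ?_
      exact (hS.Ex_mul_T hl (dd a b) (ed a b) (nab a b)).symm
    have g2 : S.Ex (fun z x => (1 / N * ∑ a, S.mg φ l a z * φ x a) ^ 2) =
        1 / N ^ 2 * ∑ a, ∑ b, S.Ex (fun z _ => (S.mg φ l a z * S.mg φ l b z) *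
          S.T l (fun _ x => φ x a * φ x b) z) := by
      have e1 : (fun (z : ι → ℝ) (x : X) => (1 / (N : ℝ) * ∑ a, S.mg φ l a z * φ x a) ^ 2) =
          fun z x => 1 / N ^ 2 * ∑ a, ∑ b, (S.mg φ l a z * S.mg φ l b z) * (φ x a * φ x b) := by
        funext z x
        rw [mul_pow, sq (∑ a, S.mg φ l a z * φ x a), Finset.sum_mul_sum, div_pow, one_pow]
        congr 1
        refine Finset.sum_congr rfl fun a _ => Finset.sum_congr rfl fun b _ => ?_
        ring
      have em : ∀ a b, EG (fun z => S.mg φ l a z * S.mg φ l b z) := fun a b =>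
        (eg_mg hS hl a).mul (eg_mg hS hl b)
      rw [e1, Sy.Ex_const_mul, hS.Ex_sum _ fun a _ => Nh.sum _ fun b _ =>
        Nh.mul (Nh.fst (em a b)) (nab a b)]
      congr 1
      refine Finset.sum_congr rfl fun a _ => ?_
      rw [hS.Ex_sum _ fun b _ => Nh.mul (Nh.fst (em a b)) (nab a b)]
      refine Finset.sum_congr rfl fun b _ => ?_
      refine (hS.Ex_mul_T hl (φ := fun z => S.mg φ l a z * S.mg φ l b z) ?_ (em a b)
        (nab a b)).symm
      intro z w
      exact congrArg₂ (· * ·) (dep_mg S φ l a z w) (dep_mg S φ l b z w)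
    have g3 : ∀ k ∈ Finset.Ico (l + 1) (S.K + 1), S.Ex (fun z _ => ∑ a, ∑ b,
          S.T l (fun _ x => φ x a * φ x b) z * S.T l (fun z _ => S.mg φ k a z * S.mg φ k b z) z) =
        ∑ a, ∑ b, S.Ex (fun z _ =>
          S.T l (fun _ x => φ x a * φ x b) z * S.T l (fun z _ => S.mg φ k a z * S.mg φ k b z) z) := by
      intro k hk'
      rw [hS.Ex_sum _ fun a _ => Nh.sum _ fun b _ => Nh.fst ((eA a b).mul (eB k hk' a b))]
      refine Finset.sum_congr rfl fun a _ => ?_
      rw [hS.Ex_sum _ fun b _ => Nh.fst ((eA a b).mul (eB k hk' a b))]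
    have g4 : S.Ex (fun z _ => ∑ a, ∑ b,
          S.T l (fun _ x => φ x a * φ x b) z * S.T l (fun _ x => φ x a * φ x b) z) =
        ∑ a, ∑ b, S.Ex (fun z _ =>
          S.T l (fun _ x => φ x a * φ x b) z * S.T l (fun _ x => φ x a * φ x b) z) := by
      rw [hS.Ex_sum _ fun a _ => Nh.sum _ fun b _ => Nh.fst ((eA a b).mul (eA a b))]
      refine Finset.sum_congr rfl fun a _ => ?_
      rw [hS.Ex_sum _ fun b _ => Nh.fst ((eA a b).mul (eA a b))]
    have g5 : ∀ a b, S.Ex (fun z _ => d a b z * S.T l (fun _ x => φ x a * φ x b) z) =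
        s l * (S.Ex (fun z _ => S.T l (fun _ x => φ x a * φ x b) z *
            S.T l (fun _ x => φ x a * φ x b) z) -
          ∑ k ∈ Finset.Ico (l + 1) (S.K + 1), S.p k * S.Ex (fun z _ =>
            S.T l (fun _ x => φ x a * φ x b) z *
              S.T l (fun z _ => S.mg φ k a z * S.mg φ k b z) z) -
          S.m (l + 1) * S.Ex (fun z _ => (S.mg φ l a z * S.mg φ l b z) *
            S.T l (fun _ x => φ x a * φ x b) z)) := by
      intro a b
      have n1 : Nh (X := X) (fun z _ => S.T l (fun _ x => φ x a * φ x b) z *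
            S.T l (fun _ x => φ x a * φ x b) z) := Nh.fst ((eA a b).mul (eA a b))
      have n2 : ∀ k ∈ Finset.Ico (l + 1) (S.K + 1), Nh (X := X) (fun z _ => S.p k *
          (S.T l (fun _ x => φ x a * φ x b) z *
              S.T l (fun z _ => S.mg φ k a z * S.mg φ k b z) z)) := fun k hk' =>
        Nh.fst (EG.const_mul _ ((eA a b).mul (eB k hk' a b)))
      have n3 : Nh (X := X) (fun z _ => S.m (l + 1) * ((S.mg φ l a z * S.mg φ l b z) *
            S.T l (fun _ x => φ x a * φ x b) z)) :=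
        Nh.fst (EG.const_mul _ (((eg_mg hS hl a).mul (eg_mg hS hl b)).mul (eA a b)))
      have e1 : (fun (z : ι → ℝ) (_ : X) => d a b z * S.T l (fun _ x => φ x a * φ x b) z) =
          fun z _ => s l * ((S.T l (fun _ x => φ x a * φ x b) z *
            S.T l (fun _ x => φ x a * φ x b) z - ∑ k ∈ Finset.Ico (l + 1) (S.K + 1), S.p k *
          (S.T l (fun _ x => φ x a * φ x b) z *
              S.T l (fun z _ => S.mg φ k a z * S.mg φ k b z) z)) -
              S.m (l + 1) * ((S.mg φ l a z * S.mg φ l b z) *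
            S.T l (fun _ x => φ x a * φ x b) z)) := by
        funext z _
        simp only [hd]
        have e2 : ∑ k ∈ Finset.Ico (l + 1) (S.K + 1), S.p k *
          (S.T l (fun _ x => φ x a * φ x b) z *
              S.T l (fun z _ => S.mg φ k a z * S.mg φ k b z) z) =
            S.T l (fun _ x => φ x a * φ x b) z * ∑ k ∈ Finset.Ico (l + 1) (S.K + 1), S.p k *
              S.T l (fun z _ => S.mg φ k a z * S.mg φ k b z) z := by
          rw [Finset.mul_sum]
          refine Finset.sum_congr rfl fun k _ => ?_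
          ring
        rw [e2]
        ring
      rw [e1, Sy.Ex_const_mul, hS.Ex_sub (Nh.sub n1 (Nh.sum _ n2)) n3,
        hS.Ex_sub n1 (Nh.sum _ n2), hS.Ex_sum _ n2, Sy.Ex_const_mul]
      congr 3
      refine Finset.sum_congr rfl fun k _ => ?_
      rw [Sy.Ex_const_mul]
    rw [g1, g2, F.pairEx_Rov_sq hl, g4]
    simp_rw [g5]
    have g6 : ∑ i ∈ Finset.Ico (l + 1) (S.K + 1), S.p i * (1 / (N : ℝ) ^ 2 *
        S.Ex (fun z _ => ∑ a, ∑ b, S.T l (fun _ x => φ x a * φ x b) z *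
          S.T l (fun z _ => S.mg φ i a z * S.mg φ i b z) z)) =
        1 / (N : ℝ) ^ 2 * ∑ a, ∑ b, ∑ k ∈ Finset.Ico (l + 1) (S.K + 1), S.p k * S.Ex (fun z _ =>
            S.T l (fun _ x => φ x a * φ x b) z *
              S.T l (fun z _ => S.mg φ k a z * S.mg φ k b z) z) := by
      rw [Finset.sum_congr rfl fun k hk' => by rw [g3 k hk']]
      simp_rw [Finset.mul_sum]
      rw [Finset.sum_comm]
      refine Finset.sum_congr rfl fun a _ => ?_
      rw [Finset.sum_comm]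
      refine Finset.sum_congr rfl fun b _ => Finset.sum_congr rfl fun k _ => ?_
      ring
    rw [g6]
    simp_rw [mul_sub, Finset.sum_sub_distrib, ← Finset.mul_sum]
    ring
  rw [h2, F.Ex_uu hl] at h
  refine Eq.trans h ?_
  rw [← mul_add]
  congr 1
  have e5 : ∀ k, S.Ex (fun z x => uu S φ l z x * uu S φ k z x) =
      S.Ex (fun z x => (1 / N * ∑ a, S.mg φ l a z * φ x a) *
          (1 / N * ∑ a, S.mg φ k a z * φ x a)) := fun k => rfl
  simp only [e5]
  ring

/-- In (B), the averages over three replicas are at most the average over two replicas. -/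
theorem three_le_two {l i : ℕ} (hl : l ≤ i) (hi : i ≤ S.K) :
    1 / N ^ 2 * S.Ex (fun z _ => ∑ a, ∑ b,
      S.T l (fun _ x => φ x a * φ x b) z * S.T l (fun z _ => S.mg φ i a z * S.mg φ i b z) z) ≤
        S.pairEx l (fun x x' => Rov φ x x' ^ 2) := by
  have hS := F.hreg
  have hlK : l ≤ S.K := hl.trans hi
  rw [F.pairEx_Rov_sq hlK]
  refine mul_le_mul_of_nonneg_left ?_ (by positivity)
  have na : ∀ a, Nh (ι := ι) (fun (_ : ι → ℝ) (x : X) => φ x a) := fun a => Nh.snd fun x => φ x a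
  have nab : ∀ a b, Nh (ι := ι) (fun (_ : ι → ℝ) (x : X) => φ x a * φ x b) := fun a b =>
    Nh.snd fun x => φ x a * φ x b
  have em : ∀ a, EG (S.mg φ i a) := fun a => eg_mg hS hi a
  have emm : ∀ a b, EG (fun z => S.mg φ i a z * S.mg φ i b z) := fun a b => (em a).mul (em b)
  have eA : ∀ a b, EG (S.T l (fun _ x => φ x a * φ x b)) := fun a b => hS.eg_T hlK (nab a b)
  have eB : ∀ a b, EG (S.T l (fun z _ => S.mg φ i a z * S.mg φ i b z)) := fun a b =>
    hS.eg_T hlK (Nh.fst (emm a b))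
  refine hS.Ex_mono (Nh.sum _ fun a _ => Nh.sum _ fun b _ => Nh.fst ((eA a b).mul (eB a b)))
    (Nh.sum _ fun a _ => Nh.sum _ fun b _ => Nh.fst ((eA a b).mul (eA a b))) fun z _ => ?_
  rw [← sub_nonneg, ← Finset.sum_sub_distrib]
  simp_rw [← Finset.sum_sub_distrib, ← mul_sub]
  -- the conditional covariance
  have nd : ∀ a, Nh (fun (z : ι → ℝ) (x : X) => φ x a - S.mg φ i a z) := fun a =>
    Nh.sub (na a) (Nh.fst (em a))
  have e1 : ∀ a b, S.T l (fun _ x => φ x a * φ x b) z -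
      S.T l (fun z _ => S.mg φ i a z * S.mg φ i b z) z =
      S.T l (fun z x => (φ x a - S.mg φ i a z) * (φ x b - S.mg φ i b z)) z := by
    intro a b
    have t1 : ∀ a b, S.T l (fun z x => S.mg φ i a z * φ x b) z =
        S.T l (fun z _ => S.mg φ i a z * S.mg φ i b z) z := by
      intro a b
      rw [← hS.T_T hl hi (Nh.mul (Nh.fst (em a)) (na b))]
      congr 1
      funext z' _
      rw [T_mul_left S (dep_mg S φ i a)]
      rfl
    have e2 : (fun (z : ι → ℝ) (x : X) => (φ x a - S.mg φ i a z) * (φ x b - S.mg φ i b z)) =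
        fun z x => ((φ x a * φ x b - S.mg φ i a z * φ x b) - S.mg φ i b z * φ x a) +
          S.mg φ i a z * S.mg φ i b z := by
      funext z x
      ring
    have n1 := Nh.mul (Nh.fst (em a)) (na b)
    have n2 := Nh.mul (Nh.fst (em b)) (na a)
    rw [e2, hS.T_add hlK (Nh.sub (Nh.sub (nab a b) n1) n2) (Nh.fst (emm a b)),
      hS.T_sub hlK (Nh.sub (nab a b) n1) n2, hS.T_sub hlK (nab a b) n1, t1, t1]
    have e3 : (fun (z : ι → ℝ) (_ : X) => S.mg φ i b z * S.mg φ i a z) =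
        fun z _ => S.mg φ i a z * S.mg φ i b z := by
      funext z _
      exact mul_comm _ _
    rw [e3]
    ring
  simp_rw [e1]
  have e4 : ∑ a, ∑ b, S.T l (fun _ x => φ x a * φ x b) z *
      S.T l (fun z x => (φ x a - S.mg φ i a z) * (φ x b - S.mg φ i b z)) z =
      ∑ x, S.pr l z x * S.T l (fun z y => (∑ a, φ x a * (φ y a - S.mg φ i a z)) ^ 2) z := by
    have e5 : ∀ x, S.T l (fun z y => (∑ a, φ x a * (φ y a - S.mg φ i a z)) ^ 2) z =
        ∑ a, ∑ b, (φ x a * φ x b) *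
          S.T l (fun z x => (φ x a - S.mg φ i a z) * (φ x b - S.mg φ i b z)) z := by
      intro x
      have e6 : (fun (z : ι → ℝ) (y : X) => (∑ a, φ x a * (φ y a - S.mg φ i a z)) ^ 2) =
          fun z y => ∑ a, ∑ b, (φ x a * φ x b) *
            ((fun (z : ι → ℝ) (x : X) => (φ x a - S.mg φ i a z) * (φ x b - S.mg φ i b z)) z y) := by
        funext z y
        rw [sq, Finset.sum_mul_sum]
        refine Finset.sum_congr rfl fun a _ => Finset.sum_congr rfl fun b _ => ?_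
        ring
      rw [e6, hS.T_sum hlK _ fun a _ => Nh.sum _ fun b _ =>
        Nh.const_mul _ (Nh.mul (nd a) (nd b))]
      refine Finset.sum_congr rfl fun a _ => ?_
      rw [hS.T_sum hlK _ fun b _ => Nh.const_mul _ (Nh.mul (nd a) (nd b))]
      refine Finset.sum_congr rfl fun b _ => ?_
      rw [Sy.T_const_mul]
    simp_rw [e5, Finset.mul_sum]
    rw [Finset.sum_comm]
    rw [Finset.sum_comm (s := (Finset.univ : Finset X))]
    rw [Finset.sum_comm]
    refine Finset.sum_congr rfl fun a _ => ?_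
    rw [Finset.sum_comm (s := (Finset.univ : Finset X))]
    refine Finset.sum_congr rfl fun b _ => ?_
    rw [hS.T_pr hlK (fun x => φ x a * φ x b), Finset.sum_mul]
    refine Finset.sum_congr rfl fun x _ => ?_
    ring
  rw [e4]
  refine Finset.sum_nonneg fun x _ => mul_nonneg (hS.pr_nonneg hlK z x) ?_
  have h0 := hS.T_mono hlK (f := fun _ _ => (0 : ℝ))
    (g := fun z y => (∑ a, φ x a * (φ y a - S.mg φ i a z)) ^ 2) (Nh.snd fun _ => 0)
    (Nh.pow (Nh.sum _ fun a _ => Nh.const_mul _ (nd a)) 2) (fun z y => sq_nonneg _) z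
  rwa [hS.T_const hlK] at h0

lemma uu_eq {l : ℕ} (hl : l ≤ S.K) (z : ι → ℝ) (x : X) :
    uu S φ l z x = ∑ x', S.pr l z x' * Rov φ x' x := by
  have hS := F.hreg
  simp_rw [uu, mg_eq hS hl, Rov, Finset.sum_mul]
  rw [Finset.sum_comm, Finset.mul_sum]
  refine Finset.sum_congr rfl fun x' _ => ?_
  rw [Finset.mul_sum, Finset.mul_sum, Finset.mul_sum]
  refine Finset.sum_congr rfl fun a _ => ?_
  ring

lemma abs_uu_le {l : ℕ} (hl : l ≤ S.K) (z : ι → ℝ) (x : X) : |uu S φ l z x| ≤ 1 := by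
  have hS := F.hreg
  rw [F.uu_eq hl]
  refine (Finset.abs_sum_le_sum_abs _ _).trans ?_
  rw [← hS.sum_pr hl z]
  refine Finset.sum_le_sum fun x' _ => ?_
  rw [abs_mul, abs_of_nonneg (hS.pr_nonneg hl z x')]
  exact mul_le_of_le_one_right (hS.pr_nonneg hl z x') (F.abs_Rov_le x' x)

lemma nh_hz (j : ℕ) : Nh (hz φ zc j) := by
  exact Nh.const_mul _ (Nh.sum _ fun i _ => Nh.mul (Nh.fst (EG.coord (zc j i)))
    (Nh.snd fun x => φ x i))

end FldP

end Vale.Agent.P146.H295
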