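import Vale.Agent.P146.H295.Conc
import Vale.Agent.P146.H186.Gau

set_option linter.all false

/-!
The deficit Gram matrix of the fields of a linear gauge invariant system is positive semidefinite
(planted Brascamp-Lieb).
-/

open MeasureTheory ProbabilityTheory

namespace Vale.Agent.P146.H295

open Vale.Agent.P157.Lv Vale.Agent.P157.Lv.Sy Vale.Agent.P146.H425 Vale.Agent.P146.H186
open Vale.Agent.P146.H94 (Gg)
open Vale.Agent.P157.Lv.Fld (uu nh_uu mg_eq eg_mg dep_mg sum_mg_sq Ex_mg_mul)

variable {ι X : Type} [Fintype ι] [DecidableEq ι] [Fintype X] [DecidableEq X] [Nonempty X]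
  {S : Sy ι X} {D : ι → (ι → ℝ) → X → ℝ} {N : ℕ}
  {φ : X → Fin N → ℝ} {zc : ℕ → Fin N → ι} {s : ℕ → ℝ} {P : ℕ → Prop}

/-- the coefficients of `∑_p w_p hz_p` (up to the factor `1/N`) -/
noncomputable def vf (K : ℕ) (φ : X → Fin N → ℝ) (zc : ℕ → Fin N → ι) (w : ℕ → ℝ) (x : X)
    (e : ι) : ℝ :=
  ∑ p ∈ Finset.range (K + 1), ∑ i, if zc p i = e then w p * φ x i else 0

lemma lf_vf (K : ℕ) (w : ℕ → ℝ) (x : X) (z : ι → ℝ) :
    lf (vf K φ zc w x) z = ∑ p ∈ Finset.range (K + 1), w p * ∑ i, z (zc p i) * φ x i := by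
  unfold lf vf
  simp_rw [Finset.sum_mul]
  rw [Finset.sum_comm]
  refine Finset.sum_congr rfl fun p _ => ?_
  rw [Finset.sum_comm, Finset.mul_sum]
  refine Finset.sum_congr rfl fun i _ => ?_
  rw [Finset.sum_eq_single (zc p i)]
  · rw [if_pos rfl]; ring
  · intro e _ he
    rw [if_neg fun h => he h.symm, zero_mul]
  · intro h; exact absurd (Finset.mem_univ _) h

lemma nq_vf (F : FldP S D φ zc s P) (hinj : ∀ p ≤ S.K, P p → Function.Injective (zc p))
    {w : ℕ → ℝ} (hw : ∀ p, ¬ P p → w p = 0) (x : X) :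
    nq (vf S.K φ zc w x) = N * ∑ p ∈ Finset.range (S.K + 1), w p ^ 2 := by
  have h1 : nq (vf S.K φ zc w x) = lf (vf S.K φ zc w x) (vf S.K φ zc w x) := by
    unfold nq lf
    exact Finset.sum_congr rfl fun e _ => sq _
  rw [h1, lf_vf, Finset.mul_sum]
  refine Finset.sum_congr rfl fun p hp => ?_
  rw [Finset.mem_range] at hp
  by_cases hPp : P p
  · have h2 : ∀ i, vf S.K φ zc w x (zc p i) = w p * φ x i := by
      intro i
      unfold vf
      rw [Finset.sum_eq_single p, Finset.sum_eq_single i]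
      · rw [if_pos rfl]
      · intro j _ hj
        rw [if_neg fun h => hj (hinj p (by omega) hPp h)]
      · intro h; exact absurd (Finset.mem_univ _) h
      · intro q hq hqp
        rw [Finset.mem_range] at hq
        refine Finset.sum_eq_zero fun j _ => ?_
        by_cases hPq : P q
        · rw [if_neg]
          intro h
          apply hqp
          rw [← F.lev q (by omega) hPq j, h, F.lev p (by omega) hPp i]
        · rw [hw q hPq, zero_mul, ite_self]
      · intro h
        exact absurd (Finset.mem_range.mpr hp) h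
    simp_rw [h2]
    have e : ∑ i, w p * φ x i * φ x i = w p * ∑ i, φ x i ^ 2 := by
      rw [Finset.mul_sum]
      refine Finset.sum_congr rfl fun i _ => ?_
      ring
    rw [e, F.norm]
    ring
  · rw [hw p hPp]
    ring

lemma cov_vf {a : X → ι → ℝ} {x0 : X} (G : Gg a x0)
    (hs : ∀ p ≤ S.K, P p → 0 < s p)
    (ha : ∀ p ≤ S.K, P p → ∀ i x, a x (zc p i) = s p * φ x i)
    {w : ℕ → ℝ} (hw : ∀ p, ¬ P p → w p = 0) : CovG G (vf S.K φ zc w) := by
  intro y x e
  unfold vf
  rw [Finset.mul_sum]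
  refine Finset.sum_congr rfl fun p hp => ?_
  rw [Finset.mem_range] at hp
  rw [Finset.mul_sum]
  refine Finset.sum_congr rfl fun i _ => ?_
  by_cases hPp : P p
  · have h1 : φ (G.op y x) i = G.chi y (zc p i) * φ x i := by
      have h2 := G.act y x (zc p i)
      rw [ha p (by omega) hPp, ha p (by omega) hPp] at h2
      have h3 := hs p (by omega) hPp
      have h4 : s p * φ (G.op y x) i = s p * (G.chi y (zc p i) * φ x i) := by
        rw [h2]; ring
      exact mul_left_cancel₀ h3.ne' h4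
    by_cases h : zc p i = e
    · rw [if_pos h, if_pos h, h1, h]
      ring
    · rw [if_neg h, if_neg h, mul_zero]
  · rw [hw p hPp, zero_mul, zero_mul, ite_self, mul_zero]

/-- **Planted Brascamp-Lieb.** -/
theorem gp_of_lin {a : X → ι → ℝ} {c0 : ℝ} {x0 : X} (h : LinS S a (fun _ => c0)) (G : Gg a x0)
    (F : FldP S D φ zc s P) (hinj : ∀ p ≤ S.K, P p → Function.Injective (zc p))
    (hs : ∀ p ≤ S.K, P p → 0 < s p)
    (ha : ∀ p ≤ S.K, P p → ∀ i x, a x (zc p i) = s p * φ x i) : GP S φ zc s P := by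
  intro c hc
  have hS := h.reg
  have hN := F.N_pos
  set w : ℕ → ℝ := fun p => c p * (1 / s p) * (1 / N) with hw
  have hw0 : ∀ p, ¬ P p → w p = 0 := fun p hp => by simp [hw, hc p hp]
  -- the linear form
  set f : (ι → ℝ) → X → ℝ := fun z x => ∑ p ∈ Finset.range (S.K + 1), c p * ll φ zc s p z x
    with hf
  have ef : (fun z x => lf (vf S.K φ zc w x) z) = f := by
    funext z x
    rw [lf_vf, hf]
    refine Finset.sum_congr rfl fun p _ => ?_
    simp only [hw, ll, hz]
    ring
  have hm := mU_all h G (cov_vf (S := S) (φ := φ) (zc := zc) G hs ha hw0)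
  have h1 := Ex_var h hm
  have h2 : S.Ex (fun z x => (lf (vf S.K φ zc w x) z -
      S.Ex (fun z x => lf (vf S.K φ zc w x) z)) ^ 2) = Cv S f f := by
    have nf : Nh f := Nh.sum _ fun p _ => Nh.const_mul _ (nh_ll F p)
    have e1 : ∀ z x, lf (vf S.K φ zc w x) z = f z x := fun z x => congrFun (congrFun ef z) x
    rw [Cv_self_nonneg F nf, ef]
    congr 1
    funext z x
    rw [e1]
  rw [h2] at h1
  have h3 : S.Ex (fun _ x => nq (vf S.K φ zc w x)) =
      ∑ p ∈ Finset.range (S.K + 1), c p ^ 2 * (1 / (N * s p ^ 2)) := by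
    simp_rw [nq_vf F hinj hw0]
    rw [hS.Ex_const, Finset.mul_sum]
    refine Finset.sum_congr rfl fun p hp => ?_
    rw [Finset.mem_range] at hp
    by_cases hPp : P p
    · have := hs p (by omega) hPp
      simp only [hw]
      field_simp
    · simp [hw, hc p hPp]
  rw [h3] at h1
  have nl : ∀ p, Nh (ll φ zc s p) := fun p => nh_ll F p
  have h4 : Cv S f f = ∑ p ∈ Finset.range (S.K + 1), ∑ q ∈ Finset.range (S.K + 1),
      c p * c q * Cv S (ll φ zc s p) (ll φ zc s q) := by
    have e1 : S.Ex f = ∑ p ∈ Finset.range (S.K + 1), c p * S.Ex (ll φ zc s p) := by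
      rw [hf, hS.Ex_sum _ fun p _ => Nh.const_mul _ (nl p)]
      exact Finset.sum_congr rfl fun p _ => Sy.Ex_const_mul _ _ _
    have e2 : S.Ex (fun z x => f z x * f z x) = ∑ p ∈ Finset.range (S.K + 1),
        ∑ q ∈ Finset.range (S.K + 1), c p * c q *
          S.Ex (fun z x => ll φ zc s p z x * ll φ zc s q z x) := by
      have e3 : (fun z x => f z x * f z x) = fun z x => ∑ p ∈ Finset.range (S.K + 1),
          ∑ q ∈ Finset.range (S.K + 1), (c p * c q) * (ll φ zc s p z x * ll φ zc s q z x) := by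
        funext z x
        simp only [hf]
        rw [Finset.sum_mul_sum]
        refine Finset.sum_congr rfl fun p _ => Finset.sum_congr rfl fun q _ => ?_
        ring
      rw [e3, hS.Ex_sum _ fun p _ => Nh.sum _ fun q _ => Nh.const_mul _ (Nh.mul (nl p) (nl q))]
      refine Finset.sum_congr rfl fun p _ => ?_
      rw [hS.Ex_sum _ fun q _ => Nh.const_mul _ (Nh.mul (nl p) (nl q))]
      exact Finset.sum_congr rfl fun q _ => Sy.Ex_const_mul _ _ _
    rw [Cv, e1, e2, Finset.sum_mul_sum, ← Finset.sum_sub_distrib]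
    refine Finset.sum_congr rfl fun p _ => ?_
    rw [← Finset.sum_sub_distrib]
    refine Finset.sum_congr rfl fun q _ => ?_
    rw [Cv]
    ring
  have h5 : ∑ p ∈ Finset.range (S.K + 1), ∑ q ∈ Finset.range (S.K + 1),
      c p * c q * gg S φ zc s p q =
      ∑ p ∈ Finset.range (S.K + 1), c p ^ 2 * (1 / (N * s p ^ 2)) - Cv S f f := by
    rw [h4, ← Finset.sum_sub_distrib]
    refine Finset.sum_congr rfl fun p hp => ?_
    have e1 : ∑ q ∈ Finset.range (S.K + 1), c p * c q * gg S φ zc s p q =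
        ∑ q ∈ Finset.range (S.K + 1), ((if p = q then c p * c q * (1 / (N * s p ^ 2)) else 0) -
          c p * c q * Cv S (ll φ zc s p) (ll φ zc s q)) := by
      refine Finset.sum_congr rfl fun q _ => ?_
      unfold gg
      split_ifs <;> ring
    rw [e1, Finset.sum_sub_distrib, Finset.sum_ite_eq, if_pos hp]
    ring
  rw [h5]
  linarith

end Vale.Agent.P146.H295
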