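import Vale.Agent.P146.H295.S3L0
import Vale.Agent.P146.H97.CG2

/-!
# P146, lower half, S3 for the law of the lower side of the grid (helper295)

`s3L`: helper457's input, the constants chosen (helper97's `cg`).
-/

open MeasureTheory ProbabilityTheory

namespace Vale.Agent.P146.H295.S3L

open Vale.Agent.P157 Vale.Agent.P157.Lv Vale.Agent.P157.Lv.Sy
open Vale.Agent.P146.H93 Vale.Agent.P146.H186 Vale.Agent.P146.U
open Vale.Agent.P146.H758 Vale.Agent.P146.H985.S3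
open Vale.Agent.P146.H457 (pk mB bB wB aB PB Adm Shr)

/-- **S3L**: the law of the lower side with its small fields against the plain law of four levels. -/
theorem s3L {β : ℝ} (hβ : 1 < β) (h2 : Ex2Out β) (hL : LStar β) {S τ E0 d : ℝ} (hτ : 0 < τ)
    (hE0 : 0 ≤ E0) (hd : 0 < d) :
    ∃ κ0 q0 K0 : ℝ, ∃ n0 : ℕ, 0 < κ0 ∧ 0 < q0 ∧ 1 ≤ K0 ∧ ∀ n : ℕ, n0 ≤ n → ∀ u : ℝ,
    K0 * (n : ℝ) ^ (-(1 / 6) : ℝ) ≤ u → u ≤ (n : ℝ) ^ (-(11 / 100) : ℝ) →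
    H758.Ap n β (51 / 100 * u) (4 * u) (8 * u ^ 3) (P1 n β (51 / 100 * u)) (E0 * (n * u ^ 5)) →
    ∀ (κ r q : ℝ) (N : ℕ), 0 < κ → κ ≤ 1 / 200 → 0 < r → r ≤ κ → 0 < q → q ≤ q0 → 2 ≤ N →
    ∀ T ∈ Set.Icc τ S, ∀ w ∈ Set.Icc (0 : ℝ) 1, ∀ V : {p // p ∈ PB N} → ℝ, (∀ p, 0 < V p) →
    ∑ p, V p ≤ κ0 * u ^ 3 →
    |((skS n (N + 4) (mB N u (1 + r) (1 + κ) q) (bB n N β u S T τ) (aB N u w V)).fe -
      P1 n β (51 / 100 * u) - n / (2 * β) * (∑ p, V p + w * u ^ 3)) / (n * u ^ 5) -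
      H437.psiN n β τ u S 1 (1 + r) (1 + κ) T 0 w| ≤ d :=
  s3L0 (by linarith) (H97.cg (by linarith) h2 hL) hτ hE0 hd

end Vale.Agent.P146.H295.S3L
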