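import Vale.Agent.P146.H985.S3g
import Vale.Agent.P146.H457.IntL0
import Vale.Agent.P146.H437.GridN

/-!
# P146, lower half, S3 for the law of the lower side of the grid (helper295)

* `s3L_unit`: the law `mB, bB, aB` of helper457 against the plain law `mN, bN, wN` of four levels, at
  one `n` and one `u`, from helper985's `s3_unitB`.
* `s3L0`: the constants chosen, from helper97's `CG`.
-/

open MeasureTheory ProbabilityTheory

namespace Vale.Agent.P146.H295.S3L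

open Vale.Agent.P157 Vale.Agent.P157.Lv Vale.Agent.P157.Lv.Sy
open Vale.Agent.P146.H93 Vale.Agent.P146.H186 Vale.Agent.P146.U
open Vale.Agent.P146.H758 Vale.Agent.P146.H985.S3
open Vale.Agent.P146.H457 (pk mB bB wB aB PB Adm Shr)
open Vale.Agent.P146.H437 (mN bN wN psiN em_mN)

variable {n N : ℕ} {β u y Y V1 A E0 κ0 c1 D S ε T T1 v z q w κ r d τ : ℝ}
  {V : {p // p ∈ PB N} → ℝ}

/-- the blocks `{1}`, `{2, …, N + 2}`, `{N + 3}`, `{N + 4}` -/
def kB (N : ℕ) : ℕ → ℕ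
  | 0 => 0
  | 1 => 1
  | 2 => N + 2
  | 3 => N + 3
  | _ => N + 4

lemma blk_B (N : ℕ) : Blk (N + 4) 4 (kB N) where
  k0 := rfl
  kL := rfl
  mono := fun l hl => by
    interval_cases l
    · exact Nat.zero_le _
    · show 1 ≤ N + 2
      omega
    · show N + 2 ≤ N + 3
      omega
    · show N + 3 ≤ N + 4
      omega

lemma pk_in (c : ℝ) {i p r : ℕ} (h : p < i ∧ i ≤ r) :
    ∑ j ∈ Finset.Ioc p r, pk i c j = c := by
  unfold pk
  rw [Finset.sum_ite_eq', if_pos (Finset.mem_Ioc.2 h)]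

lemma pk_out (c : ℝ) {i p r : ℕ} (h : i ≤ p ∨ r < i) :
    ∑ j ∈ Finset.Ioc p r, pk i c j = 0 := by
  unfold pk
  rw [Finset.sum_ite_eq', if_neg]
  intro h2
  have := Finset.mem_Ioc.1 h2
  omega

lemma bN_sq (hn : 0 < n) (h : Shr u S T T1) :
    bN n β T1 u S T 1 ^ 2 = β ^ 2 / n * (1 - S * u ^ 2) ∧
    bN n β T1 u S T 2 ^ 2 = β ^ 2 / n * ((S - T) * u ^ 2) ∧
    bN n β T1 u S T 3 ^ 2 = β ^ 2 / n * ((T - T1) * u ^ 2) ∧
    bN n β T1 u S T 4 ^ 2 = β ^ 2 / n * (T1 * u ^ 2) := by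
  have hn' : (0 : ℝ) < n := Nat.cast_pos.2 hn
  have key : ∀ x : ℝ, 0 ≤ x → (β / √n * √x) ^ 2 = β ^ 2 / n * x := by
    intro x hx
    rw [mul_pow, div_pow, Real.sq_sqrt hn'.le, Real.sq_sqrt hx]
  have u2 : 0 ≤ u ^ 2 := sq_nonneg u
  have h1 := h.Su
  have h2 := h.TS
  have h3 := h.T1T
  have h5 := h.T10
  exact ⟨key _ (by linarith), key _ (mul_nonneg (by linarith) u2),
    key _ (mul_nonneg (by linarith) u2), key _ (mul_nonneg h5 u2)⟩

lemma bN_nonneg (hβ : 0 ≤ β) : ∀ l < 4, 0 ≤ bN n β T1 u S T (l + 1) := by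
  intro l hl
  have hc : 0 ≤ β / √(n : ℝ) := by positivity
  interval_cases l
  · exact mul_nonneg hc (Real.sqrt_nonneg _)
  · exact mul_nonneg hc (Real.sqrt_nonneg _)
  · exact mul_nonneg hc (Real.sqrt_nonneg _)
  · exact mul_nonneg hc (Real.sqrt_nonneg _)

lemma wN_nonneg : ∀ l < 4, 0 ≤ wN u 0 w (l + 1) := by
  intro l hl
  interval_cases l
  · exact le_rfl
  · exact Real.sqrt_nonneg _
  · exact Real.sqrt_nonneg _
  · exact le_rfl

lemma wN_sq (hu : 0 < u) (hw : 0 ≤ w) : wN u 0 w 1 ^ 2 = 0 ∧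
    wN u 0 w 2 ^ 2 = 0 ∧ wN u 0 w 3 ^ 2 = w * u ^ 3 ∧ wN u 0 w 4 ^ 2 = 0 := by
  refine ⟨?_, ?_, ?_, ?_⟩
  · show (0 : ℝ) ^ 2 = 0
    norm_num
  · show √(0 * u ^ 3) ^ 2 = 0
    rw [zero_mul, Real.sqrt_zero]
    norm_num
  · exact Real.sq_sqrt (by positivity)
  · show (0 : ℝ) ^ 2 = 0
    norm_num

lemma sum_bB_blk (hn : 0 < n) (h : Shr u S T T1) : ∀ l < 4,
    ∑ j ∈ Finset.Ioc (kB N l) (kB N (l + 1)), bB n N β u S T T1 j ^ 2 =
      bN n β T1 u S T (l + 1) ^ 2 := by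
  obtain ⟨h1, h2, h3, h4⟩ := bN_sq (β := β) hn h
  intro l hl
  simp only [H457.bB_sq hn h, Finset.sum_add_distrib]
  interval_cases l
  · show (∑ j ∈ Finset.Ioc 0 1, _) + (∑ j ∈ Finset.Ioc 0 1, _) + (∑ j ∈ Finset.Ioc 0 1, _) +
      (∑ j ∈ Finset.Ioc 0 1, _) = _
    rw [pk_in _ ⟨by omega, by omega⟩, pk_out _ (Or.inr (by omega)),
      pk_out _ (Or.inr (by omega)), pk_out _ (Or.inr (by omega)), h1]
    ring
  · show (∑ j ∈ Finset.Ioc 1 (N + 2), _) + (∑ j ∈ Finset.Ioc 1 (N + 2), _) +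
      (∑ j ∈ Finset.Ioc 1 (N + 2), _) + (∑ j ∈ Finset.Ioc 1 (N + 2), _) = _
    rw [pk_out _ (Or.inl (by omega)), pk_in _ ⟨by omega, by omega⟩,
      pk_out _ (Or.inr (by omega)), pk_out _ (Or.inr (by omega)), h2]
    ring
  · show (∑ j ∈ Finset.Ioc (N + 2) (N + 3), _) + (∑ j ∈ Finset.Ioc (N + 2) (N + 3), _) +
      (∑ j ∈ Finset.Ioc (N + 2) (N + 3), _) + (∑ j ∈ Finset.Ioc (N + 2) (N + 3), _) = _
    rw [pk_out _ (Or.inl (by omega)), pk_out _ (Or.inl (by omega)),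
      pk_in _ ⟨by omega, by omega⟩, pk_out _ (Or.inr (by omega)), h3]
    ring
  · show (∑ j ∈ Finset.Ioc (N + 3) (N + 4), _) + (∑ j ∈ Finset.Ioc (N + 3) (N + 4), _) +
      (∑ j ∈ Finset.Ioc (N + 3) (N + 4), _) + (∑ j ∈ Finset.Ioc (N + 3) (N + 4), _) = _
    rw [pk_out _ (Or.inl (by omega)), pk_out _ (Or.inl (by omega)),
      pk_out _ (Or.inl (by omega)), pk_in _ ⟨by omega, by omega⟩, h4]
    ring

lemma sum_wB_blk (hu : 0 < u) (hw : 0 ≤ w) : ∀ l < 4,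
    ∑ j ∈ Finset.Ioc (kB N l) (kB N (l + 1)), wB N u w j ^ 2 = wN u 0 w (l + 1) ^ 2 := by
  obtain ⟨h1, h2, h3, h4⟩ := wN_sq hu hw
  intro l hl
  simp only [H457.wB_sq hu.le hw]
  interval_cases l
  · show (∑ j ∈ Finset.Ioc 0 1, _) = _
    rw [pk_out _ (Or.inr (by omega)), h1]
  · show (∑ j ∈ Finset.Ioc 1 (N + 2), _) = _
    rw [pk_out _ (Or.inr (by omega)), h2]
  · show (∑ j ∈ Finset.Ioc (N + 2) (N + 3), _) = _
    rw [pk_in _ ⟨by omega, by omega⟩, h3]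
  · show (∑ j ∈ Finset.Ioc (N + 3) (N + 4), _) = _
    rw [pk_out _ (Or.inl (by omega)), h4]

lemma mB_near (H : Adm N u v z q) : ∀ l < 4, ∀ j, kB N l < j → j ≤ kB N (l + 1) →
    |mB N u v z q j - mN u 1 v z (l + 1)| ≤ q * mN u 1 v z (l + 1) := by
  have hq := H.q0
  have hu := H.u0
  have hv : 0 < v := lt_of_lt_of_le one_pos H.v1
  have hz : 0 < z := hv.trans_le H.vz
  have triv : ∀ {x : ℝ}, 0 ≤ x → |x - x| ≤ q * x := by
    intro x hx
    rw [sub_self, abs_zero]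
    positivity
  intro l hl j h1 h2
  interval_cases l
  · have h3 : j = 1 := by
      have h3 : 0 < j := h1
      have h4 : j ≤ 1 := h2
      omega
    subst h3
    rw [H457.mB_one]
    exact triv (by positivity)
  · have h3 : 1 < j := h1
    have h4 : j ≤ N + 2 := h2
    obtain ⟨h5, h6⟩ := H.mid (l := j) (by omega) h4
    show |mB N u v z q j - 1 * u| ≤ q * (1 * u)
    have : 0 ≤ q * u := by positivity
    rw [abs_le]
    constructor <;> nlinarith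
  · have h3 : j = N + 3 := by
      have h3 : N + 2 < j := h1
      have h4 : j ≤ N + 3 := h2
      omega
    subst h3
    rw [H457.mB_v]
    exact triv (by positivity)
  · have h3 : j = N + 4 := by
      have h3 : N + 3 < j := h1
      have h4 : j ≤ N + 4 := h2
      omega
    subst h3
    rw [H457.mB_z]
    exact triv (by positivity)

/-- **S3 for the law of the lower side**, with the local energy `D`. -/
theorem s3L_unit (hn : 2 ≤ n) (hβ : 0 < β) (H : Adm N u v z q) (hz : z ≤ 51 / 50)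
    (h : Shr u S T T1) (hT1 : 0 < T1)
    (hA : Ap n β y Y V1 A (E0 * (n * u ^ 5))) (hy0 : 0 < y) (hy : y ≤ 51 / 100 * u)
    (hY : 4 * u ≤ Y) (hY1 : Y ≤ 1) (hE0 : 0 ≤ E0)
    (hE1 : 1 ≤ 4 * E0 * (n * u ^ 6)) (hn2 : 1 ≤ n * u ^ 2)
    (hG : Gc n β (4 * S) ε c1 (51 / 100 * u)) (hc1 : 0 ≤ c1)
    (hV0 : ∀ p, 0 ≤ V p) (hV : ∑ p, V p ≤ κ0 * u ^ 3) (hκ0 : κ0 ≤ 1) (hκε : 8 * κ0 ≤ ε)
    (hV1 : 3 * u ^ 3 ≤ V1) (hw : 0 ≤ w) (hw1 : w ≤ 1)
    (hD : (skS n 4 (ray 4 (1 + 1) (mN u 1 v z)) (bN n β T1 u S T) (wN u 0 w)).fe -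
      (skS n 4 (mN u 1 v z) (bN n β T1 u S T) (wN u 0 w)).fe ≤ D * (n * u ^ 5)) :
    |((skS n (N + 4) (mB N u v z q) (bB n N β u S T T1) (aB N u w V)).fe - P1 n β (51 / 100 * u) -
      n / (2 * β) * (∑ p, V p + w * u ^ 3)) / (n * u ^ 5) - psiN n β T1 u S 1 v z T 0 w| ≤
      c1 + κ0 * (5 + 320 * E0 / (β ^ 2 * T1) + 2 * E0) + q * D := by
  have hn0 : 0 < n := by omega
  have hn' : (0 : ℝ) < n := Nat.cast_pos.2 hn0
  have hu := H.u0
  have hu2 : 0 < u ^ 2 := by positivity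
  have hu3 : 0 < u ^ 3 := by positivity
  have hP : 0 < (n : ℝ) * u ^ 5 := by positivity
  have hv0 : 0 < v := lt_of_lt_of_le one_pos H.v1
  have hz0 : 0 < z := hv0.trans_le H.vz
  have hzu : z * u ≤ 51 / 50 * u := mul_le_mul_of_nonneg_right hz hu.le
  have hmK : mB N u v z q (N + 4) = z * u := H457.mB_z
  have hm1 : mB N u v z q 1 = 51 / 100 * u := H457.mB_one
  have hEx : Ex2 (N + 4) (mB N u v z q) y Y :=
    { em := H.em
      K1 := by omega
      y0 := hy0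
      Y1 := hY1
      ge := by rw [hm1]; linarith
      le := by rw [hmK]; linarith }
  have hbK : bB n N β u S T T1 (N + 4) = β / √n * √(T1 * u ^ 2) := by
    unfold bB
    rw [if_neg (by omega), if_neg (by omega), if_neg (by omega), if_pos rfl]
  have hb0 : 0 < bB n N β u S T T1 (N + 4) := by
    rw [hbK]
    have h3 : 0 < T1 * u ^ 2 := by positivity
    positivity
  have hbK2 : β ^ 2 * T1 * u ^ 2 ≤ n * bB n N β u S T T1 (N + 4) ^ 2 := by
    rw [hbK, mul_pow, div_pow, Real.sq_sqrt hn'.le, Real.sq_sqrt (by positivity)]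
    refine le_of_eq ?_
    field_simp
  have hS1 : β ^ 2 / n * (1 - 4 * S * (51 / 100 * u) ^ 2) ≤ bB n N β u S T T1 1 ^ 2 := by
    have h3 : bB n N β u S T T1 1 = β / √n * √(1 - S * u ^ 2) := by
      unfold bB
      rw [if_pos rfl]
    have h4 : (β / √(n : ℝ) * √(1 - S * u ^ 2)) ^ 2 = β ^ 2 / n * (1 - S * u ^ 2) := by
      rw [mul_pow, div_pow, Real.sq_sqrt hn'.le, Real.sq_sqrt (by linarith [h.Su])]
    rw [h3, h4]
    refine mul_le_mul_of_nonneg_left ?_ (by positivity)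
    have hS0 : 0 ≤ S := by linarith [h.TS, h.T1T, h.T10]
    nlinarith [mul_nonneg hS0 hu2.le]
  have hsum0 : 0 ≤ ∑ p, V p := Finset.sum_nonneg fun p _ => hV0 p
  have hwP : ∀ p ∈ PB N, wB N u w p = 0 := by
    intro p hp
    have := H457.mem_PB.1 hp
    unfold wB
    rw [if_neg (by omega)]
  have htw : tv (N + 4) (wB N u w) = w * u ^ 3 := by
    unfold tv
    simp only [H457.wB_sq hu.le hw]
    rw [H457.sum_pk _ (by omega), if_pos (by omega)]
  have hVtot : tv (N + 4) (wB N u w) + ∑ p, V p + u ^ 3 ≤ V1 := by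
    rw [htw]
    have h3 : w * u ^ 3 ≤ 1 * u ^ 3 := mul_le_mul_of_nonneg_right hw1 hu3.le
    have h4 : κ0 * u ^ 3 ≤ 1 * u ^ 3 := mul_le_mul_of_nonneg_right hκ0 hu3.le
    linarith
  have hem : Em 4 (mN u 1 v z) := em_mN hu (by norm_num) H.v1 H.vz H.zu
  have key := s3_unitB (n := n) (P := PB N) (V := V) (k := kB N) (L := 4) (e := mN u 1 v z)
    (b' := bN n β T1 u S T) (w' := wN u 0 w) (D := D) (δ := q) (τ := β ^ 2 * T1)
    (κ0 := κ0) hn hβ hu hA hEx (by rw [hmK]; linarith)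
    (fun j _ _ => H457.bB_nonneg hβ.le j) (H457.tv_bB hn0 h) hb0 (by positivity) hbK2 hE0
    hE1 hn2 (by rw [hm1]; linarith) (by rw [hm1]; linarith) (by rw [hmK]; linarith)
    (by rw [hmK, hm1]; linarith) (by rw [hm1]; exact hS1) (by rw [hm1]; exact hG) hc1
    (fun j => H457.wB_nonneg j) H457.PB_K hwP hV0 hV hκ0 hκε hVtot hem (blk_B N) H.q0.le
    (by linarith [H.q1]) (by show 2 * (z * u) ≤ 1; linarith) (mB_near H) (bN_nonneg hβ.le)
    wN_nonneg (sum_bB_blk hn0 h) (sum_wB_blk hu hw) hD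
  unfold psiN aB
  rw [← sub_div, abs_div, abs_of_pos hP, div_le_iff₀ hP]
  refine le_trans (le_of_eq ?_) key
  congr 1
  field_simp
  ring

/-- the energy in the a priori box -/
lemma dL_box (hn : 0 < n) (hβ : 0 < β) (H : Adm N u v z q) (hz : z ≤ 51 / 50)
    (h : Shr u S T T1) (hA : Ap n β y Y V1 A (E0 * (n * u ^ 5))) (hy0 : 0 < y)
    (hy : y ≤ 51 / 100 * u) (hY : 4 * u ≤ Y) (hY1 : Y ≤ 1) (hV1 : 3 * u ^ 3 ≤ V1)
    (hw : 0 ≤ w) (hw1 : w ≤ 1) :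
    (skS n 4 (ray 4 (1 + 1) (mN u 1 v z)) (bN n β T1 u S T) (wN u 0 w)).fe -
      (skS n 4 (mN u 1 v z) (bN n β T1 u S T) (wN u 0 w)).fe ≤ 2 * E0 * (n * u ^ 5) := by
  have hu := H.u0
  have hu3 : 0 < u ^ 3 := by positivity
  have hzu : z * u ≤ 51 / 50 * u := mul_le_mul_of_nonneg_right hz hu.le
  obtain ⟨h1, h2, h3, h4⟩ := bN_sq (β := β) hn h
  obtain ⟨g1, g2, g3, g4⟩ := wN_sq hu hw
  have htv : tv 4 (bN n β T1 u S T) = β ^ 2 / n := by
    unfold tv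
    rw [Finset.sum_range_succ, Finset.sum_range_succ, Finset.sum_range_succ,
      Finset.sum_range_one, h1, h2, h3, h4]
    ring
  have htw : tv 4 (wN u 0 w) ≤ V1 := by
    unfold tv
    rw [Finset.sum_range_succ, Finset.sum_range_succ, Finset.sum_range_succ,
      Finset.sum_range_one, g1, g2, g3, g4]
    have h3 : w * u ^ 3 ≤ 1 * u ^ 3 := mul_le_mul_of_nonneg_right hw1 hu3.le
    linarith
  have he : Ex2 4 (mN u 1 v z) y Y :=
    { em := em_mN hu (by norm_num) H.v1 H.vz H.zu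
      K1 := by norm_num
      y0 := hy0
      Y1 := hY1
      ge := by
        show y ≤ 51 / 100 * u
        linarith
      le := by
        show z * u ≤ Y
        linarith }
  refine (ray_box (n := n) hβ hA he (by show 2 * (z * u) ≤ Y; linarith) htv htw).trans
    (le_of_eq (by ring))

/-- **S3L with the constants chosen**, from helper97's `CG`. -/
theorem s3L0 {β : ℝ} (hβ : 0 < β) (hG : H97.CG β) {S τ E0 d : ℝ} (hτ : 0 < τ) (hE0 : 0 ≤ E0)
    (hd : 0 < d) : ∃ κ0 q0 K0 : ℝ, ∃ n0 : ℕ, 0 < κ0 ∧ 0 < q0 ∧ 1 ≤ K0 ∧ ∀ n : ℕ, n0 ≤ n →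
    ∀ u : ℝ, K0 * (n : ℝ) ^ (-(1 / 6) : ℝ) ≤ u → u ≤ (n : ℝ) ^ (-(11 / 100) : ℝ) →
    H758.Ap n β (51 / 100 * u) (4 * u) (8 * u ^ 3) (P1 n β (51 / 100 * u)) (E0 * (n * u ^ 5)) →
    ∀ (κ r q : ℝ) (N : ℕ), 0 < κ → κ ≤ 1 / 200 → 0 < r → r ≤ κ → 0 < q → q ≤ q0 → 2 ≤ N →
    ∀ T ∈ Set.Icc τ S, ∀ w ∈ Set.Icc (0 : ℝ) 1, ∀ V : {p // p ∈ PB N} → ℝ, (∀ p, 0 < V p) →
    ∑ p, V p ≤ κ0 * u ^ 3 →
    |((skS n (N + 4) (mB N u (1 + r) (1 + κ) q) (bB n N β u S T τ) (aB N u w V)).fe -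
      P1 n β (51 / 100 * u) - n / (2 * β) * (∑ p, V p + w * u ^ 3)) / (n * u ^ 5) -
      H437.psiN n β τ u S 1 (1 + r) (1 + κ) T 0 w| ≤ d := by
  obtain ⟨ε, K0, n1, hε, hK0, hn1, h1⟩ := gc_ev hβ hG (4 * S) (c1 := d / 4) (by positivity)
  set E1 : ℝ := max E0 1 with hE1
  have hE11 : 1 ≤ E1 := le_max_right _ _
  have hE10 : E0 ≤ E1 := le_max_left _ _
  set G : ℝ := 5 + 320 * E1 / (β ^ 2 * τ) + 2 * E1 with hGd
  have hG0 : 0 < G := by positivity
  -- `4 u ≤ 1` and `S u² ≤ 1` for large `n`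
  have hlim : Filter.Tendsto (fun n : ℕ => (n : ℝ) ^ (11 / 100 : ℝ)) Filter.atTop Filter.atTop :=
    (tendsto_rpow_atTop (by norm_num)).comp tendsto_natCast_atTop_atTop
  obtain ⟨n2, h2⟩ := Filter.eventually_atTop.1 (hlim.eventually_ge_atTop (max 4 |S|))
  refine ⟨min (d / (4 * G)) (min (ε / 8) 1), min (d / (8 * E1)) (1 / 4), K0, max (max n1 n2) 2,
    by positivity, by positivity, hK0, ?_⟩
  intro n hn u hu hu' hA κ r q N hκ hκ' hr hrκ hq hq' hN T hT w hw V hV hVs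
  have hn2 : 2 ≤ n := (le_max_right _ _).trans hn
  have hna : n1 ≤ n := ((le_max_left _ _).trans (le_max_left _ _)).trans hn
  have hnb : n2 ≤ n := ((le_max_right _ _).trans (le_max_left _ _)).trans hn
  have hn' : (0 : ℝ) < n := by exact_mod_cast (by omega : 0 < n)
  have hn1' : (1 : ℝ) ≤ n := by exact_mod_cast (by omega : 1 ≤ n)
  have hp : 0 < (n : ℝ) ^ (-(1 / 6) : ℝ) := Real.rpow_pos_of_pos hn' _
  have hu0 : 0 < u := lt_of_lt_of_le (mul_pos (by linarith) hp) hu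
  have hu6 : (n : ℝ) ^ (-(1 / 6) : ℝ) ≤ u :=
    le_trans (by nlinarith) hu
  have hL := h2 n hnb
  have hu4 : 4 * u ≤ 1 := by
    have h3 : (4 : ℝ) ≤ (n : ℝ) ^ (11 / 100 : ℝ) := (le_max_left _ _).trans hL
    calc 4 * u ≤ (n : ℝ) ^ (11 / 100 : ℝ) * (n : ℝ) ^ (-(11 / 100) : ℝ) :=
          mul_le_mul h3 hu' hu0.le (by positivity)
      _ = 1 := by
          rw [← Real.rpow_add hn']
          norm_num
  have hSu : S * u ^ 2 ≤ 1 := by
    have h3 : |S| ≤ (n : ℝ) ^ (11 / 100 : ℝ) := (le_max_right _ _).trans hL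
    have h4 : |S| * u ≤ 1 := by
      calc |S| * u ≤ (n : ℝ) ^ (11 / 100 : ℝ) * (n : ℝ) ^ (-(11 / 100) : ℝ) :=
            mul_le_mul h3 hu' hu0.le (by positivity)
        _ = 1 := by
            rw [← Real.rpow_add hn']
            norm_num
    calc S * u ^ 2 ≤ |S| * u ^ 2 := mul_le_mul_of_nonneg_right (le_abs_self S) (sq_nonneg u)
      _ = (|S| * u) * u := by ring
      _ ≤ 1 * 1 := mul_le_mul h4 (by linarith) hu0.le zero_le_one
      _ = 1 := one_mul 1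
  have hnu6 : 1 ≤ (n : ℝ) * u ^ 6 := H97.nx6 (by omega) hu6
  have hu1 : u ≤ 1 := by linarith
  have hnu2 : 1 ≤ (n : ℝ) * u ^ 2 := by
    refine hnu6.trans (mul_le_mul_of_nonneg_left ?_ hn'.le)
    calc u ^ 6 = u ^ 2 * u ^ 4 := by ring
      _ ≤ u ^ 2 * 1 := mul_le_mul_of_nonneg_left (pow_le_one₀ hu0.le hu1) (by positivity)
      _ = u ^ 2 := mul_one _
  have hA' : Ap n β (51 / 100 * u) (4 * u) (8 * u ^ 3) (P1 n β (51 / 100 * u))
      (E1 * (n * u ^ 5)) := by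
    have g : E0 * (n * u ^ 5) ≤ E1 * (n * u ^ 5) :=
      mul_le_mul_of_nonneg_right hE10 (by positivity)
    exact ⟨fun V g1 g2 => by linarith [hA.lo V g1 g2], fun V g1 g2 => by linarith [hA.up V g1 g2]⟩
  have hqa : q ≤ d / (8 * E1) := hq'.trans (min_le_left _ _)
  have hqb : q ≤ 1 / 4 := hq'.trans (min_le_right _ _)
  have H : Adm N u (1 + r) (1 + κ) q :=
    { N2 := hN
      u0 := hu0
      q0 := hq
      q1 := hqb
      v1 := by linarith
      vz := by linarith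
      zu := by nlinarith }
  have hSh : Shr u S T τ := ⟨hSu, hT.2, hT.1, hτ.le⟩
  have hz : 1 + κ ≤ 51 / 50 := by linarith
  have hu3 : 0 < u ^ 3 := by positivity
  have hD := dL_box (n := n) (E0 := E1) (by omega) hβ H hz hSh hA' (by positivity) le_rfl le_rfl hu4
    (by linarith) hw.1 hw.2
  have key := s3L_unit (n := n) (E0 := E1) (κ0 := min (d / (4 * G)) (min (ε / 8) 1)) (V := V)
    hn2 hβ H hz hSh hτ hA' (by positivity) le_rfl le_rfl hu4 (by linarith)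
    (by nlinarith) hnu2 (h1 n hna u hu hu' (51 / 100 * u) (by linarith) (by linarith))
    (by positivity) (fun p => (hV p).le) hVs ((min_le_right _ _).trans (min_le_right _ _))
    (by
      have : min (d / (4 * G)) (min (ε / 8) 1) ≤ ε / 8 :=
        (min_le_right _ _).trans (min_le_left _ _)
      linarith) (by linarith) hw.1 hw.2 hD
  refine key.trans ?_
  have e1 : min (d / (4 * G)) (min (ε / 8) 1) * G ≤ d / 4 := by
    calc min (d / (4 * G)) (min (ε / 8) 1) * G ≤ d / (4 * G) * G :=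
          mul_le_mul_of_nonneg_right (min_le_left _ _) hG0.le
      _ = d / 4 := by field_simp
  have e2 : q * (2 * E1) ≤ d / 4 := by
    calc q * (2 * E1) ≤ d / (8 * E1) * (2 * E1) :=
          mul_le_mul_of_nonneg_right hqa (by positivity)
      _ = d / 4 := by field_simp; norm_num
  rw [← hGd]
  linarith

end Vale.Agent.P146.H295.S3L
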