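import Vale.Agent.P146.H758.Sand
import Vale.Agent.P146.H479.Expo

/-!
# P146: blocks of levels (helper295)

`t 0 = 0 ≤ t 1 ≤ … ≤ t J = K`: the block `i` is the set of levels `t (i - 1) < j ≤ t i`, `1 ≤ i ≤ J`.

* `fe_bk`: if the exponents are constant on the blocks, the free energy is that of `J` levels with the
  variances of the blocks summed.
* `bk_sand`: if the exponents of the block `i` lie between `c i` and `c' i`, then
  `fe (J; c) ≤ fe (K; m) ≤ fe (J; c')`.
* `bk_near`: exponents of the block `i` in `[(1 - δ) c i, c i]`: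
  `0 ≤ fe (J; c) - fe (K; m) ≤ (δ / Δ) (fe (J; (1 + Δ) c) - fe (J; c))`.
-/

open MeasureTheory ProbabilityTheory

namespace Vale.Agent.P146.H295

open Vale.Agent.P157 Vale.Agent.P157.Lv Vale.Agent.P157.Lv.Sy
open Vale.Agent.P146.H425 Vale.Agent.P146.H325 Vale.Agent.P146.R1 Vale.Agent.P146.U
open Vale.Agent.P146.H93 Vale.Agent.P146.H479
open Vale.Agent.P146.H66 (cm em_cm fe_mono_m)
open Vale.Agent.P146.H758 (VG_const em_mono)

set_option linter.unusedSectionVars false

/-- the boundaries of `J` blocks of the levels `1, …, K` -/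
structure Bk (J K : ℕ) (t : ℕ → ℕ) : Prop where
  t0 : t 0 = 0
  tJ : t J = K
  mono : ∀ i < J, t i ≤ t (i + 1)

/-- the amplitude of the block `i` -/
noncomputable def bk (t : ℕ → ℕ) (b : ℕ → ℝ) (i : ℕ) : ℝ :=
  √(∑ j ∈ Finset.range (t i - t (i - 1)), b (t (i - 1) + 1 + j) ^ 2)

variable {n J K : ℕ} {t : ℕ → ℕ} {m m' c c' b w : ℕ → ℝ} {δ Δ : ℝ} {i j : ℕ}

lemma Bk.le (h : Bk J K t) {i i' : ℕ} (h1 : i ≤ i') (h2 : i' ≤ J) : t i ≤ t i' := by
  induction i' with
  | zero =>
    have : i = 0 := by omega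
    rw [this]
  | succ k ih =>
    rcases Nat.lt_or_ge i (k + 1) with h3 | h3
    · exact (ih (by omega) (by omega)).trans (h.mono k (by omega))
    · have : i = k + 1 := by omega
      rw [this]

lemma bk_sq (t : ℕ → ℕ) (b : ℕ → ℝ) (i : ℕ) :
    bk t b i ^ 2 = ∑ j ∈ Finset.range (t i - t (i - 1)), b (t (i - 1) + 1 + j) ^ 2 :=
  Real.sq_sqrt (Finset.sum_nonneg fun _ _ => sq_nonneg _)

lemma bk_nonneg (t : ℕ → ℕ) (b : ℕ → ℝ) (i : ℕ) : 0 ≤ bk t b i := Real.sqrt_nonneg _

lemma em_pos (hm : Em K m) (h1 : 1 ≤ j) (h2 : j ≤ K + 1) : 0 < m j :=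
  hm.pos.trans_le (em_mono hm h1 h2)

/-! ### merge -/

section chain

variable {κ : Type} [Fintype κ] {F : (κ → ℝ) → ℝ} {v : ℕ → κ → ℝ}

/-- the chain with constant exponents on the blocks -/
theorem VG_bk (h : Bk J K t) (hF : Lip F) (hc : Em J c)
    (he : ∀ i < J, ∀ j, t i < j → j ≤ t (i + 1) → m j = c (i + 1)) : ∀ d i, i + d = J →
    VG m v F (t i) (K - t i) = VG c (fun i e => bk t (fun j => v j e) i) F i d
  | 0, i, hi => by
    have : i = J := by omega
    rw [this, h.tJ, Nat.sub_self, VG_zero, VG_zero]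
  | d + 1, i, hi => by
    have h1 : t i ≤ t (i + 1) := h.mono i (by omega)
    have h2 : t (i + 1) ≤ K := by
      rw [← h.tJ]
      exact h.le (by omega) le_rfl
    have e1 : K - t i = (t (i + 1) - t i) + (K - t (i + 1)) := by omega
    have e2 : t i + (t (i + 1) - t i) = t (i + 1) := by omega
    rw [e1, ← VG_add, e2, VG_bk h hF hc he d (i + 1) (by omega), VG_succ]
    have hL : Lip (VG c (fun i e => bk t (fun j => v j e) i) F (i + 1) d) :=
      Lip.VG hF d (i + 1) fun j h3 h4 => em_pos hc (by omega) (by omega)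
    rw [VG_const (m := m) hL (em_pos hc (by omega) (by omega)) (t (i + 1) - t i) (t i)
      (fun j h3 h4 => he i (by omega) j h3 (by omega))]
    rfl

end chain

/-- **Merge of the blocks.** -/
theorem fe_bk (h : Bk J K t) (hm : Em K m) (hc : Em J c)
    (he : ∀ i < J, ∀ j, t i < j → j ≤ t (i + 1) → m j = c (i + 1)) (b w : ℕ → ℝ) :
    (skS n K m b w).fe = (skS n J c (bk t b) (bk t w)).fe := by
  have h0 := VG_bk (v := va (n := n) b w) h (F0_lip n) hc he J 0 (by omega)
  rw [h.t0, Nat.sub_zero] at h0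
  rw [fe_eq hm, fe_eq hc, h0]
  congr 2
  funext i e
  rcases e with p | q
  · rfl
  · rfl

/-! ### the exponents of the blocks -/

/-- the number of the block of the level `j` -/
noncomputable def bx (t : ℕ → ℕ) (J j : ℕ) : ℕ :=
  ((Finset.range (J + 1)).filter fun i => t i < j).card

lemma bx_eq (h : Bk J K t) (hi : i < J) (h1 : t i < j) (h2 : j ≤ t (i + 1)) :
    bx t J j = i + 1 := by
  have e : ((Finset.range (J + 1)).filter fun i => t i < j) = Finset.range (i + 1) := by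
    ext k
    rw [Finset.mem_filter, Finset.mem_range, Finset.mem_range]
    constructor
    · intro hk
      by_contra h3
      have := h.le (i := i + 1) (i' := k) (by omega) (by omega)
      omega
    · intro hk
      have := h.le (i := k) (i' := i) (by omega) (by omega)
      omega
  rw [bx, e, Finset.card_range]

lemma bx_zero (t : ℕ → ℕ) (J : ℕ) : bx t J 0 = 0 := by
  rw [bx, Finset.card_eq_zero]
  exact Finset.filter_eq_empty_iff.2 fun i _ => by omega

lemma bx_top (h : Bk J K t) (hj : K < j) : bx t J j = J + 1 := by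
  have e : ((Finset.range (J + 1)).filter fun i => t i < j) = Finset.range (J + 1) := by
    refine Finset.filter_true_of_mem fun k hk => ?_
    have := h.le (i := k) (i' := J) (by have := Finset.mem_range.1 hk; omega) le_rfl
    rw [h.tJ] at this
    omega
  rw [bx, e, Finset.card_range]

lemma bx_mono (t : ℕ → ℕ) (J : ℕ) {j j' : ℕ} (hj : j ≤ j') : bx t J j ≤ bx t J j' := by
  refine Finset.card_le_card fun k hk => ?_
  rw [Finset.mem_filter] at hk ⊢
  exact ⟨hk.1, by omega⟩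

lemma bx_le (t : ℕ → ℕ) (J j : ℕ) : bx t J j ≤ J + 1 := by
  refine (Finset.card_filter_le _ _).trans ?_
  rw [Finset.card_range]

lemma bx_pos (h : Bk J K t) (hj : 1 ≤ j) : 1 ≤ bx t J j := by
  refine Finset.card_pos.2 ⟨0, ?_⟩
  rw [Finset.mem_filter, Finset.mem_range, h.t0]
  omega

/-- the exponents of the blocks, level by level -/
noncomputable def cx (t : ℕ → ℕ) (J : ℕ) (c : ℕ → ℝ) (j : ℕ) : ℝ := c (bx t J j)

lemma cx_eq (h : Bk J K t) (hi : i < J) (h1 : t i < j) (h2 : j ≤ t (i + 1)) :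
    cx t J c j = c (i + 1) := by rw [cx, bx_eq h hi h1 h2]

lemma em_cx (h : Bk J K t) (hc : Em J c) : Em K (cx t J c) where
  m0 := by rw [cx, bx_zero, hc.m0]
  mK := by rw [cx, bx_top h (by omega), hc.mK]
  mono := fun l _ => em_mono hc (bx_mono t J (by omega)) (bx_le t J _)
  pos := by
    show (0 : ℝ) < c (bx t J 1)
    exact em_pos hc (bx_pos h le_rfl) (bx_le t J _)

/-- every level lies in a block -/
lemma Bk.find (h : Bk J K t) (h1 : 1 ≤ j) (h2 : j ≤ K) : ∃ i < J, t i < j ∧ j ≤ t (i + 1) := by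
  have h3 : ∀ J' ≤ J, j ≤ t J' → ∃ i < J', t i < j ∧ j ≤ t (i + 1) := by
    intro J'
    induction J' with
    | zero =>
      intro _ h4
      rw [h.t0] at h4
      omega
    | succ k ih =>
      intro h3 h4
      rcases Nat.lt_or_ge (t k) j with h5 | h5
      · exact ⟨k, by omega, h5, h4⟩
      · obtain ⟨i, h6, h7⟩ := ih (by omega) h5
        exact ⟨i, by omega, h7⟩
  exact h3 J le_rfl (by rw [h.tJ]; exact h2)

theorem fe_cx (h : Bk J K t) (hc : Em J c) (b w : ℕ → ℝ) :
    (skS n K (cx t J c) b w).fe = (skS n J c (bk t b) (bk t w)).fe :=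
  fe_bk h (em_cx h hc) hc (fun _ hi _ h1 h2 => cx_eq h hi h1 h2) b w

/-! ### the sandwich -/

theorem bk_lo (h : Bk J K t) (hm : Em K m) (hc : Em J c)
    (he : ∀ i < J, ∀ j, t i < j → j ≤ t (i + 1) → c (i + 1) ≤ m j) (b w : ℕ → ℝ) :
    (skS n J c (bk t b) (bk t w)).fe ≤ (skS n K m b w).fe := by
  rw [← fe_cx h hc b w]
  refine fe_mono_m (em_cx h hc) hm (fun j h1 h2 => ?_) b w
  obtain ⟨i, hi, h3, h4⟩ := h.find h1 h2
  rw [cx_eq h hi h3 h4]
  exact he i hi j h3 h4

theorem bk_hi (h : Bk J K t) (hm : Em K m) (hc : Em J c)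
    (he : ∀ i < J, ∀ j, t i < j → j ≤ t (i + 1) → m j ≤ c (i + 1)) (b w : ℕ → ℝ) :
    (skS n K m b w).fe ≤ (skS n J c (bk t b) (bk t w)).fe := by
  rw [← fe_cx h hc b w]
  refine fe_mono_m hm (em_cx h hc) (fun j h1 h2 => ?_) b w
  obtain ⟨i, hi, h3, h4⟩ := h.find h1 h2
  rw [cx_eq h hi h3 h4]
  exact he i hi j h3 h4

/-- **The sandwich.** -/
theorem bk_sand (h : Bk J K t) (hm : Em K m) (hc : Em J c) (hc' : Em J c')
    (he : ∀ i < J, ∀ j, t i < j → j ≤ t (i + 1) → c (i + 1) ≤ m j ∧ m j ≤ c' (i + 1))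
    (b w : ℕ → ℝ) :
    (skS n J c (bk t b) (bk t w)).fe ≤ (skS n K m b w).fe ∧
      (skS n K m b w).fe ≤ (skS n J c' (bk t b) (bk t w)).fe :=
  ⟨bk_lo h hm hc (fun i hi j h1 h2 => (he i hi j h1 h2).1) b w,
    bk_hi h hm hc' (fun i hi j h1 h2 => (he i hi j h1 h2).2) b w⟩

/-! ### the ray of exponents -/

/-- the exponents multiplied by `a` (on the levels `≤ J`) -/
noncomputable def sc (J : ℕ) (a : ℝ) (c : ℕ → ℝ) (i : ℕ) : ℝ := if i ≤ J then a * c i else c i

lemma sc_le {a : ℝ} (hi : i ≤ J) : sc J a c i = a * c i := if_pos hi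

lemma sc_top {a : ℝ} (hi : J < i) : sc J a c i = c i := if_neg (by omega)

lemma sc_one (J : ℕ) (c : ℕ → ℝ) : sc J 1 c = c := by
  funext i
  unfold sc
  split_ifs
  · rw [one_mul]
  · rfl

lemma em_sc (hc : Em J c) {a : ℝ} (ha : 0 < a) (h1 : a * c J ≤ 1) : Em J (sc J a c) where
  m0 := by rw [sc_le (Nat.zero_le _), hc.m0, mul_zero]
  mK := by rw [sc_top (by omega), hc.mK]
  mono := fun l hl => by
    rw [sc_le hl]
    rcases Nat.lt_or_ge l J with h2 | h2
    · rw [sc_le (by omega)]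
      exact mul_le_mul_of_nonneg_left (hc.mono l hl) ha.le
    · have e : l = J := by omega
      rw [sc_top (by omega), e, hc.mK]
      exact h1
  pos := by
    rcases Nat.lt_or_ge 0 J with h2 | h2
    · rw [sc_le (by omega)]
      exact mul_pos ha hc.pos
    · rw [sc_top (by omega)]
      exact hc.pos

lemma sc_conv {a a' x y : ℝ} (hxy : x + y = 1) :
    (fun i => x * sc J a c i + y * sc J a' c i) = sc J (x * a + y * a') c := by
  funext i
  unfold sc
  split_ifs
  · ring
  · rw [← add_mul, hxy, one_mul]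

/-- **Convexity along the ray**: three exponents `a ≤ a' ≤ a''`. -/
theorem fe_ray (hc : Em J c) {a a' a'' : ℝ} (ha : 0 < a) (h1 : a ≤ a') (h2 : a' ≤ a'')
    (h3 : a'' * c J ≤ 1) (b w : ℕ → ℝ) :
    (a'' - a) * (skS n J (sc J a' c) b w).fe ≤
      (a'' - a') * (skS n J (sc J a c) b w).fe + (a' - a) * (skS n J (sc J a'' c) b w).fe := by
  rcases (h1.trans h2).eq_or_lt with h4 | h4
  · have e1 : a' = a := by linarith
    have e2 : a'' = a := by linarith
    rw [e1, e2]
    simp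
  have h5 : 0 < a'' - a := by linarith
  have hcJ : 0 ≤ c J := by
    rcases Nat.lt_or_ge 0 J with h6 | h6
    · exact (em_pos hc (by omega) (by omega)).le
    · have : J = 0 := by omega
      rw [this, hc.m0]
  have h6 : a * c J ≤ 1 := (mul_le_mul_of_nonneg_right (h1.trans h2) hcJ).trans h3
  have h7 := fe_conv (n := n) (em_sc hc ha h6) (em_sc hc (ha.trans h4) h3) b w
    (a := (a'' - a') / (a'' - a)) (c := (a' - a) / (a'' - a)) (by
      exact div_nonneg (by linarith) h5.le) (by exact div_nonneg (by linarith) h5.le) (by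
      rw [← add_div, div_eq_one_iff_eq h5.ne']
      ring)
  rw [sc_conv (by
    rw [← add_div, div_eq_one_iff_eq h5.ne']
    ring)] at h7
  have e3 : (a'' - a') / (a'' - a) * a + (a' - a) / (a'' - a) * a'' = a' := by
    field_simp
    ring
  rw [e3] at h7
  have h8 := mul_le_mul_of_nonneg_left h7 h5.le
  have e4 : (a'' - a) * ((a'' - a') / (a'' - a) * (skS n J (sc J a c) b w).fe +
      (a' - a) / (a'' - a) * (skS n J (sc J a'' c) b w).fe) =
      (a'' - a') * (skS n J (sc J a c) b w).fe + (a' - a) * (skS n J (sc J a'' c) b w).fe := by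
    field_simp
  rwa [e4] at h8

/-- down along the ray -/
theorem ray_dn (hc : Em J c) (hδ : 0 ≤ δ) (hδ1 : δ < 1) (hΔ : 0 < Δ) (h3 : (1 + Δ) * c J ≤ 1)
    (b w : ℕ → ℝ) :
    (skS n J c b w).fe - (skS n J (sc J (1 - δ) c) b w).fe ≤
      δ / Δ * ((skS n J (sc J (1 + Δ) c) b w).fe - (skS n J c b w).fe) := by
  have h := fe_ray (n := n) hc (a := 1 - δ) (a' := 1) (a'' := 1 + Δ) (by linarith) (by linarith)
    (by linarith) h3 b w
  rw [sc_one] at h
  rw [div_mul_eq_mul_div, le_div_iff₀ hΔ]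
  nlinarith

/-- up along the ray -/
theorem ray_up (hc : Em J c) (hδ : 0 ≤ δ) (hδΔ : δ ≤ Δ) (hΔ : 0 < Δ) (h3 : (1 + Δ) * c J ≤ 1)
    (b w : ℕ → ℝ) :
    (skS n J (sc J (1 + δ) c) b w).fe - (skS n J c b w).fe ≤
      δ / Δ * ((skS n J (sc J (1 + Δ) c) b w).fe - (skS n J c b w).fe) := by
  have h := fe_ray (n := n) hc (a := 1) (a' := 1 + δ) (a'' := 1 + Δ) (by linarith) (by linarith)
    (by linarith) h3 b w
  rw [sc_one] at h
  rw [div_mul_eq_mul_div, le_div_iff₀ hΔ]
  nlinarith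

/-- **The exponents of the block `i` in `[(1 - δ) c i, c i]`.** -/
theorem bk_near (h : Bk J K t) (hm : Em K m) (hc : Em J c) (hδ : 0 ≤ δ) (hδ1 : δ < 1)
    (hΔ : 0 < Δ) (h3 : (1 + Δ) * c J ≤ 1)
    (he : ∀ i < J, ∀ j, t i < j → j ≤ t (i + 1) →
      (1 - δ) * c (i + 1) ≤ m j ∧ m j ≤ c (i + 1)) (b w : ℕ → ℝ) :
    0 ≤ (skS n J c (bk t b) (bk t w)).fe - (skS n K m b w).fe ∧
      (skS n J c (bk t b) (bk t w)).fe - (skS n K m b w).fe ≤
        δ / Δ * ((skS n J (sc J (1 + Δ) c) (bk t b) (bk t w)).fe -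
          (skS n J c (bk t b) (bk t w)).fe) := by
  have h1 := bk_hi (n := n) h hm hc (fun i hi j h1 h2 => (he i hi j h1 h2).2) b w
  have hcJ : 0 ≤ c J := by
    rcases Nat.lt_or_ge 0 J with h6 | h6
    · exact (em_pos hc (by omega) (by omega)).le
    · have : J = 0 := by omega
      rw [this, hc.m0]
  have h4 : (1 - δ) * c J ≤ 1 := by nlinarith
  have h2 := bk_lo (n := n) h hm (em_sc hc (a := 1 - δ) (by linarith) h4) (fun i hi j h1 h2 => by
    rw [sc_le (by omega)]
    exact (he i hi j h1 h2).1) b w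
  have h5 := ray_dn (n := n) hc hδ hδ1 hΔ h3 (bk t b) (bk t w)
  exact ⟨by linarith, by linarith⟩

/-- **The exponents of the block `i` in `[c i, (1 + δ) c i]`.** -/
theorem bk_near' (h : Bk J K t) (hm : Em K m) (hc : Em J c) (hδ : 0 ≤ δ) (hδΔ : δ ≤ Δ)
    (hΔ : 0 < Δ) (h3 : (1 + Δ) * c J ≤ 1)
    (he : ∀ i < J, ∀ j, t i < j → j ≤ t (i + 1) →
      c (i + 1) ≤ m j ∧ m j ≤ (1 + δ) * c (i + 1)) (b w : ℕ → ℝ) :
    0 ≤ (skS n K m b w).fe - (skS n J c (bk t b) (bk t w)).fe ∧
      (skS n K m b w).fe - (skS n J c (bk t b) (bk t w)).fe ≤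
        δ / Δ * ((skS n J (sc J (1 + Δ) c) (bk t b) (bk t w)).fe -
          (skS n J c (bk t b) (bk t w)).fe) := by
  have h1 := bk_lo (n := n) h hm hc (fun i hi j h1 h2 => (he i hi j h1 h2).1) b w
  have hcJ : 0 ≤ c J := by
    rcases Nat.lt_or_ge 0 J with h6 | h6
    · exact (em_pos hc (by omega) (by omega)).le
    · have : J = 0 := by omega
      rw [this, hc.m0]
  have h4 : (1 + δ) * c J ≤ 1 := by nlinarith
  have h2 := bk_hi (n := n) h hm (em_sc hc (a := 1 + δ) (by linarith) h4) (fun i hi j h1 h2 => by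
    rw [sc_le (by omega)]
    exact (he i hi j h1 h2).2) b w
  have h5 := ray_up (n := n) hc hδ hδΔ hΔ h3 (bk t b) (bk t w)
  exact ⟨by linarith, by linarith⟩

/-- the total variance does not change -/
lemma tv_bk (h : Bk J K t) (b : ℕ → ℝ) : H758.tv J (bk t b) = H758.tv K b := by
  have h1 : ∀ J' ≤ J, H758.tv J' (bk t b) = H758.tv (t J') b := by
    intro J'
    induction J' with
    | zero =>
      intro _
      rw [h.t0]
      rfl
    | succ k ih =>
      intro hk
      have h2 : t k ≤ t (k + 1) := h.mono k (by omega)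
      have e1 : t (k + 1) = t k + (t (k + 1) - t k) := by omega
      unfold H758.tv at ih ⊢
      rw [Finset.sum_range_succ, ih (by omega), bk_sq, Nat.add_sub_cancel]
      conv_rhs => rw [e1, Finset.sum_range_add]
      congr 1
      refine Finset.sum_congr rfl fun j _ => ?_
      rw [show t k + 1 + j = t k + j + 1 by omega]
  rw [h1 J le_rfl, h.tJ]

end Vale.Agent.P146.H295
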