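import Vale.Agent.P146.H758.Box
import Vale.Agent.P146.H479.Move
import Vale.Agent.P146.H479.ThUp

/-!
# P146: small additional fields on all levels (helper295)

`G V` = free energy of `skS n J c B` with the field VARIANCES `V`.  `|V|` = `sm J V` = total.

* `s3_up`: `G (W + V) ≤ G W + (G (|V| on the level 1) - G 0) + (n |V| / 2) (c_J - c_1) r` for all main
  fields `W` and all additional fields `V`, if the mean overlap at the level `J - 1` is at most `r` for
  all fields with the total variance `≤ |W| + |V|`.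
* `s3_lo`: `G W + n |V| / (2 β) - 2 E |V| / Vs ≤ G (W + V)` from the a priori bound `Ap`.
* `rq_le`: `r = √(1/n + 8 E / (n² ρ B_J²))` is admissible in `s3_up`.
-/

open MeasureTheory ProbabilityTheory Set

namespace Vale.Agent.P146.H295

open Vale.Agent.P157 Vale.Agent.P157.Lv Vale.Agent.P157.Lv.Sy
open Vale.Agent.P146.H425 Vale.Agent.P146.H325 Vale.Agent.P146.R1 Vale.Agent.P146.U
open Vale.Agent.P146.H93 Vale.Agent.P146.H479
open Vale.Agent.P146.H186 (cSK)
open Vale.Agent.P146.H758 (tv tv_nonneg tv_congr em_mono Ap Ex2 near Pu)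

set_option linter.unusedSectionVars false

variable {n J : ℕ} {c B V W : ℕ → ℝ} {p q : ℕ} {x r β y Y V1 A E : ℝ}

/-- amplitudes from variances -/
noncomputable def sv (V : ℕ → ℝ) (j : ℕ) : ℝ := √(V j)

/-- the total of the levels `1, …, J` -/
def sm (J : ℕ) (V : ℕ → ℝ) : ℝ := ∑ j ∈ Finset.range J, V (j + 1)

/-- nonnegative on the levels `1, …, J` -/
def Nn (J : ℕ) (V : ℕ → ℝ) : Prop := ∀ j, 1 ≤ j → j ≤ J → 0 ≤ V j

/-- add `x` on the level `p` -/
noncomputable def ad (V : ℕ → ℝ) (p : ℕ) (x : ℝ) : ℕ → ℝ := Function.update V p (V p + x)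

/-- the part on the levels `1, …, p` -/
noncomputable def rs (V : ℕ → ℝ) (p : ℕ) (j : ℕ) : ℝ := if 1 ≤ j ∧ j ≤ p then V j else 0

lemma na_sv (V : ℕ → ℝ) : Na J (sv V) := fun _ _ _ => Real.sqrt_nonneg _

lemma sv_sq {j : ℕ} (h : 0 ≤ V j) : sv V j ^ 2 = V j := Real.sq_sqrt h

lemma tv_sv (h : Nn J V) : tv J (sv V) = sm J V := by
  unfold tv sm
  exact Finset.sum_congr rfl fun j hj =>
    sv_sq (h (j + 1) (by omega) (by have := Finset.mem_range.1 hj; omega))

lemma sm_nonneg (h : Nn J V) : 0 ≤ sm J V := Finset.sum_nonneg fun j hj =>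
  h (j + 1) (by omega) (by have := Finset.mem_range.1 hj; omega)

lemma ad_self (V : ℕ → ℝ) (p : ℕ) (x : ℝ) : ad V p x p = V p + x := Function.update_self _ _ _

lemma ad_ne {j : ℕ} (h : j ≠ p) : ad V p x j = V j := Function.update_of_ne h _ _

lemma nn_ad (h : Nn J V) (hx : 0 ≤ x) : Nn J (ad V p x) := by
  intro j h1 h2
  by_cases hj : j = p
  · subst hj
    rw [ad_self]
    exact add_nonneg (h j h1 h2) hx
  · rw [ad_ne hj]
    exact h j h1 h2

lemma nn_rs (h : Nn J V) : Nn J (rs V p) := by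
  intro j h1 h2
  unfold rs
  split_ifs
  · exact h j h1 h2
  · exact le_rfl

lemma sm_ad (hp : 1 ≤ p) (hpJ : p ≤ J) (V : ℕ → ℝ) (x : ℝ) : sm J (ad V p x) = sm J V + x := by
  have h0 : p - 1 ∈ Finset.range J := Finset.mem_range.2 (by omega)
  unfold sm
  rw [← Finset.add_sum_erase _ _ h0, ← Finset.add_sum_erase (Finset.range J) (fun j => V (j + 1)) h0]
  have e1 : p - 1 + 1 = p := by omega
  have e2 : ∑ j ∈ (Finset.range J).erase (p - 1), ad V p x (j + 1) =
      ∑ j ∈ (Finset.range J).erase (p - 1), V (j + 1) := Finset.sum_congr rfl fun j hj => by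
    have := (Finset.mem_erase.1 hj).1
    exact ad_ne (by omega)
  rw [e1, ad_self, e2]
  ring

lemma sm_rs_le (h : Nn J V) (p : ℕ) : sm J (rs V p) ≤ sm J V := by
  unfold sm
  refine Finset.sum_le_sum fun j hj => ?_
  have := Finset.mem_range.1 hj
  unfold rs
  split_ifs
  · exact le_rfl
  · exact h (j + 1) (by omega) (by omega)

lemma sm_add (J : ℕ) (V W : ℕ → ℝ) : sm J (fun j => V j + W j) = sm J V + sm J W :=
  Finset.sum_add_distrib

lemma sm_mul (J : ℕ) (a : ℝ) (V : ℕ → ℝ) : sm J (fun j => a * V j) = a * sm J V := by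
  unfold sm
  rw [Finset.mul_sum]

lemma sm_zero (J : ℕ) : sm J (fun _ => 0) = 0 := by simp [sm]

/-- the free energy as a function of the field variances -/
noncomputable def G (n J : ℕ) (c B V : ℕ → ℝ) : ℝ := (skS n J c B (sv V)).fe

lemma G_congr (h : ∀ j, 1 ≤ j → j ≤ J → V j = W j) : G n J c B V = G n J c B W := by
  unfold G
  have e : skS n J c B (sv V) = skS n J c B (sv W) :=
    sk_congr (fun _ _ _ => rfl) rfl rfl (fun _ _ => rfl) (fun _ _ _ => rfl) (fun j h1 h2 => by
      unfold sv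
      rw [h j h1 h2])
  rw [e]

lemma av_sv (h : 0 ≤ V p) (x : ℝ) : H479.av (sv V) p x = sv (ad V p x) := by
  funext j
  unfold H479.av sv
  by_cases hj : j = p
  · subst hj
    rw [if_pos rfl, ad_self, Real.sq_sqrt h]
  · rw [if_neg hj, ad_ne hj]

lemma mv_sv (hpq : p < q) (hp : 0 ≤ W p) (hq : 0 ≤ W q) (hx : 0 ≤ x) :
    mv (sv (ad W p x)) p q x = sv (ad W q x) := by
  funext j
  unfold mv sv
  by_cases hj : j = p
  · subst hj
    rw [if_pos rfl, ad_self, Real.sq_sqrt (add_nonneg hp hx), ad_ne hpq.ne]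
    congr 1
    ring
  · rw [if_neg hj]
    by_cases hj' : j = q
    · subst hj'
      rw [if_pos rfl, ad_ne hj, ad_self, Real.sq_sqrt hq]
    · rw [if_neg hj', ad_ne hj, ad_ne hj']

/-- **The increments on one level decrease in the variance of this level.** -/
lemma own (hm : Em J c) (hB : Na J B) (hW : Nn J W) (hp : 1 ≤ p) (hpJ : p ≤ J) (hx : 0 ≤ x) :
    G n J c B (ad (rs W p) p x) + G n J c B (rs W (p - 1)) ≤
      G n J c B (rs W p) + G n J c B (ad (rs W (p - 1)) p x) := by
  have h := fe_av_mono (n := n) hm hB (na_sv (J := J) (rs W (p - 1))) p (u := 0) (v := W p)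
    (h := x) le_rfl (hW p hp hpJ) hx
  have h0 : rs W (p - 1) p = 0 := by
    unfold rs
    rw [if_neg (by omega)]
  have hp0 : 0 ≤ rs W (p - 1) p := h0.ge
  rw [av_sv hp0, av_sv hp0, av_sv hp0, av_sv hp0, zero_add] at h
  have e1 : ad (rs W (p - 1)) p (W p + x) = ad (rs W p) p x := by
    funext j
    by_cases hj : j = p
    · subst hj
      rw [ad_self, ad_self, h0, zero_add]
      unfold rs
      rw [if_pos ⟨hp, le_rfl⟩]
    · rw [ad_ne hj, ad_ne hj]
      unfold rs
      by_cases h3 : 1 ≤ j ∧ j ≤ p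
      · rw [if_pos h3, if_pos (by omega)]
      · rw [if_neg h3, if_neg (by omega)]
  have e2 : ad (rs W (p - 1)) p 0 = rs W (p - 1) := by
    unfold ad
    rw [add_zero, Function.update_eq_self]
  have e3 : ad (rs W (p - 1)) p (W p) = rs W p := by
    funext j
    by_cases hj : j = p
    · subst hj
      rw [ad_self, h0, zero_add]
      unfold rs
      rw [if_pos ⟨hp, le_rfl⟩]
    · rw [ad_ne hj]
      unfold rs
      by_cases h3 : 1 ≤ j ∧ j ≤ p
      · rw [if_pos h3, if_pos (by omega)]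
      · rw [if_neg h3, if_neg (by omega)]
  rw [e1, e2, e3] at h
  exact h

/-- the total of a point of the segment -/
lemma tv_ip (w w' : ℕ → ℝ) {s : ℝ} (hs : s ∈ Icc (0 : ℝ) 1) :
    tv J (ip w w' s) = (1 - s) * tv J w + s * tv J w' := by
  unfold tv
  rw [Finset.mul_sum, Finset.mul_sum, ← Finset.sum_add_distrib]
  exact Finset.sum_congr rfl fun j _ => ip_sq w w' hs.1 hs.2 (j + 1)

/-- **One level down**: the cost of moving `x` from the level `p + 1` to the level `p`. -/
lemma down (hn : 0 < n) (hm : Em J c) (hB : Na J B) (hW : Nn J W) (hp : 1 ≤ p) (hpJ : p + 1 ≤ J)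
    (hx : 0 ≤ x)
    (hr : ∀ ω : ℕ → ℝ, Na J ω → tv J ω ≤ sm J W + x → Rq n J c B ω (J - 1) ≤ r) :
    G n J c B (ad (rs W p) (p + 1) x) ≤
      G n J c B (ad (rs W p) p x) + n * x / 2 * ((c (p + 1) - c p) * r) := by
  have hR : Nn J (rs W p) := nn_rs hW
  have h1 := hR p hp (by omega)
  have h2 := hR (p + 1) (by omega) hpJ
  have h := fe_mvW_le (n := n) hn hm hB (na_sv (J := J) (ad (rs W p) p x)) hp
    (Nat.lt_succ_self p) hpJ hx (by
      rw [sv_sq (by rw [ad_self]; exact add_nonneg h1 hx), ad_self]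
      linarith) (r := r) (fun s hs => ?_)
  · rw [mv_sv (Nat.lt_succ_self p) h1 h2 hx] at h
    exact h
  · rw [mv_sv (Nat.lt_succ_self p) h1 h2 hx]
    refine (Rq_mono hn hm (show p + 1 - 1 ≤ J - 1 by omega) (by omega)).trans
      (hr _ (fun j _ _ => Real.sqrt_nonneg _) ?_)
    rw [tv_ip _ _ hs, tv_sv (nn_ad hR hx), tv_sv (nn_ad hR hx), sm_ad hp (by omega),
      sm_ad (by omega) hpJ]
    have := sm_rs_le hW p
    nlinarith [hs.1, hs.2]

/-- down to the level one -/
lemma chain (hn : 0 < n) (hm : Em J c) (hB : Na J B) (hW : Nn J W) (hx : 0 ≤ x)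
    (hr : ∀ ω : ℕ → ℝ, Na J ω → tv J ω ≤ sm J W + x → Rq n J c B ω (J - 1) ≤ r) :
    ∀ p, 1 ≤ p → p ≤ J → G n J c B (ad (rs W p) p x) - G n J c B (rs W p) ≤
      G n J c B (ad (fun _ => 0) 1 x) - G n J c B (fun _ => 0) +
        n * x / 2 * ((c p - c 1) * r) := by
  intro p hp
  induction p, hp using Nat.le_induction with
  | base =>
    intro hJ
    have h := own (n := n) hm hB hW le_rfl hJ hx
    have e : rs W (1 - 1) = fun _ => 0 := by
      funext j
      unfold rs
      rw [if_neg (by omega)]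
    rw [e] at h
    rw [sub_self, zero_mul, mul_zero]
    linarith
  | succ p hp ih =>
    intro hJ
    have h1 := own (n := n) hm hB hW (p := p + 1) (by omega) hJ hx
    have h2 := down (n := n) hn hm hB hW hp hJ hx hr
    have h3 := ih (by omega)
    rw [Nat.add_sub_cancel] at h1
    have e : n * x / 2 * ((c (p + 1) - c 1) * r) = n * x / 2 * ((c (p + 1) - c p) * r) +
      n * x / 2 * ((c p - c 1) * r) := by ring
    rw [e]
    linarith

lemma cSK_mono (hm : Em J c) {w : ℕ → ℝ} (hpq : p ≤ q) (hq : q ≤ J) :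
    cSK n J c B w p ≤ cSK n J c B w q := by
  have h := cSK_sub (n := n) (m := c) (b := B) (w := w) hpq (show q ≤ J + 1 by omega)
  have h1 : 0 ≤ ∑ l ∈ Finset.Ico p q, (c (l + 1) - c l) * QW n J c B w l :=
    Finset.sum_nonneg fun l hl => by
      have := Finset.mem_Ico.1 hl
      exact mul_nonneg (em_gap hm (by omega)) (QW_nonneg hm (by omega))
  linarith

/-- **Everything up to the level `J`**: free. -/
lemma raise (hm : Em J c) (hB : Na J B) (hJ : 1 ≤ J) (hW : Nn J W) (hV : Nn J V) :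
    G n J c B (fun j => W j + V j) ≤ G n J c B (ad W J (sm J V)) := by
  have hx := sm_nonneg hV
  have h := fe_int (n := n) hm hB (na_sv (J := J) fun j => W j + V j) hB
    (na_sv (J := J) (ad W J (sm J V)))
  have h1 : 0 ≤ ∫ s in (0 : ℝ)..1, gi n J c B (sv fun j => W j + V j) B
      (sv (ad W J (sm J V))) s := by
    refine intervalIntegral.integral_nonneg zero_le_one fun s _ => ?_
    unfold gi
    refine mul_nonneg (by norm_num) ?_
    set b2 := ip B B s
    set w2 := ip (sv fun j => W j + V j) (sv (ad W J (sm J V))) s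
    have e : ∀ j : Fin J, (B (j + 1) ^ 2 - B (j + 1) ^ 2) * chiB n J c b2 w2 (j + 1) +
        (sv (ad W J (sm J V)) (j + 1) ^ 2 - sv (fun j => W j + V j) (j + 1) ^ 2) *
          cSK n J c b2 w2 (j + 1) =
        (if (j : ℕ) + 1 = J then sm J V else 0) * cSK n J c b2 w2 (j + 1) -
          V (j + 1) * cSK n J c b2 w2 (j + 1) := by
      intro j
      have h2 := hW (j + 1) (by omega) (by omega)
      have h3 := hV (j + 1) (by omega) (by omega)
      rw [sv_sq (nn_ad hW hx (j + 1) (by omega) (by omega)),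
        sv_sq (V := fun j => W j + V j) (add_nonneg h2 h3)]
      by_cases hj : (j : ℕ) + 1 = J
      · rw [if_pos hj, hj, ad_self]
        ring
      · rw [if_neg hj, ad_ne hj]
        ring
    rw [Finset.sum_congr rfl fun j _ => e j, Finset.sum_sub_distrib,
      sum_one_lev ⟨hJ, le_rfl⟩ (sm J V) (fun j => cSK n J c b2 w2 j)]
    have h4 : ∑ j : Fin J, V (j + 1) * cSK n J c b2 w2 (j + 1) ≤ sm J V * cSK n J c b2 w2 J := by
      have e2 : sm J V = ∑ j : Fin J, V (j + 1) :=
        (Fin.sum_univ_eq_sum_range (fun j => V (j + 1)) J).symm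
      rw [e2, Finset.sum_mul]
      refine Finset.sum_le_sum fun j _ => ?_
      exact mul_le_mul_of_nonneg_left (cSK_mono hm (by omega) le_rfl)
        (hV (j + 1) (by omega) (by omega))
    linarith
  unfold G
  linarith

/-- **The upper side.** -/
theorem s3_up (hn : 0 < n) (hm : Em J c) (hB : Na J B) (hJ : 1 ≤ J) (hW : Nn J W) (hV : Nn J V)
    (hr : ∀ ω : ℕ → ℝ, Na J ω → tv J ω ≤ sm J W + sm J V → Rq n J c B ω (J - 1) ≤ r) :
    G n J c B (fun j => W j + V j) - G n J c B W ≤
      G n J c B (ad (fun _ => 0) 1 (sm J V)) - G n J c B (fun _ => 0) +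
        n * sm J V / 2 * ((c J - c 1) * r) := by
  have h1 := raise (n := n) hm hB hJ hW hV
  have h2 := chain (n := n) hn hm hB hW (sm_nonneg hV) hr J hJ le_rfl
  have e1 : G n J c B (rs W J) = G n J c B W := G_congr fun j h3 h4 => by
    unfold rs
    rw [if_pos ⟨h3, h4⟩]
  have e2 : G n J c B (ad (rs W J) J (sm J V)) = G n J c B (ad W J (sm J V)) :=
    G_congr fun j h3 h4 => by
      have e3 : rs W J j = W j := by
        unfold rs
        rw [if_pos ⟨h3, h4⟩]
      by_cases hj : j = J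
      · subst hj
        rw [ad_self, ad_self, e3]
      · rw [ad_ne hj, ad_ne hj, e3]
  rw [e1, e2] at h2
  linarith

/-! ### the lower side -/

/-- concavity along a ray of field variances -/
lemma ray (hm : Em J c) (hB : Na J B) (hW : ∀ j, 0 ≤ W j) (hV : ∀ j, 0 ≤ V j) {θ : ℝ}
    (h0 : 0 ≤ θ) (h1 : θ ≤ 1) :
    (1 - θ) * G n J c B W + θ * G n J c B (fun j => W j + V j) ≤
      G n J c B (fun j => W j + θ * V j) := by
  have hL : Ln W V := ⟨hW, fun j => add_nonneg (hW j) (hV j)⟩
  have h := (fl_conc (n := n) hm (ln_sq B B) hL).2 (x := 0) (y := 1) ⟨le_rfl, zero_le_one⟩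
    ⟨zero_le_one, le_rfl⟩ (show 0 ≤ 1 - θ by linarith) h0 (by ring)
  have e : ∀ s, fl n J c (fun j => B j ^ 2) (fun j => B j ^ 2 - B j ^ 2) W V s =
      G n J c B (fun j => W j + s * V j) := by
    intro s
    unfold fl G
    rw [ip_eq, sk_ipb hB]
    rfl
  rw [e, e, e] at h
  simp only [smul_eq_mul, mul_zero, mul_one, zero_add, zero_mul, add_zero, one_mul] at h
  exact h

/-- **The lower side**, from the a priori bound. -/
theorem s3_lo (hA : Ap n β y Y V1 A E) (hc : Ex2 J c y Y) (hβ : 0 ≤ β) (hB : Na J B)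
    (hb : tv J B = β ^ 2 / n) (hW : ∀ j, 0 ≤ W j) (hV : ∀ j, 0 ≤ V j) {Vs : ℝ} (hVs : 0 < Vs)
    (h1 : sm J V ≤ Vs) (h2 : sm J W + Vs ≤ V1) :
    n / β / 2 * sm J V - 2 * E * (sm J V / Vs) ≤ G n J c B (fun j => W j + V j) - G n J c B W := by
  have hx : 0 ≤ sm J V := sm_nonneg fun j _ _ => hV j
  rcases hx.eq_or_lt with h0 | h0
  · rw [← h0]
    have e : ∀ j, 1 ≤ j → j ≤ J → W j + V j = W j := by
      intro j h3 h4
      have h5 := (Finset.sum_eq_zero_iff_of_nonneg fun i _ => hV (i + 1)).1 h0.symm (j - 1)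
        (Finset.mem_range.2 (by omega))
      rw [show j - 1 + 1 = j by omega] at h5
      rw [h5, add_zero]
    rw [G_congr (W := W) e]
    simp
  obtain ⟨θ, hθ⟩ : ∃ θ, θ = sm J V / Vs := ⟨_, rfl⟩
  have hθ0 : 0 < θ := by rw [hθ]; exact div_pos h0 hVs
  have hθ1 : θ ≤ 1 := by rw [hθ]; exact (div_le_one hVs).2 h1
  have h3 := ray (n := n) hc.em hB hW (V := fun j => θ⁻¹ * V j)
    (fun j => mul_nonneg (inv_nonneg.2 hθ0.le) (hV j)) hθ0.le hθ1
  have e1 : (fun j => W j + θ * (θ⁻¹ * V j)) = fun j => W j + V j := by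
    funext j
    rw [mul_inv_cancel_left₀ hθ0.ne']
  rw [e1] at h3
  have e2 : sm J (fun j => W j + θ⁻¹ * V j) = sm J W + Vs := by
    rw [sm_add J W (fun j => θ⁻¹ * V j), sm_mul, hθ, inv_div, div_mul_cancel₀ _ h0.ne']
  have n1 := abs_le.1 (near hA hc hβ hb (w := sv W) (by
    rw [tv_sv fun j _ _ => hW j]
    linarith))
  have hWV : ∀ j, 0 ≤ W j + θ⁻¹ * V j := fun j =>
    add_nonneg (hW j) (mul_nonneg (inv_nonneg.2 hθ0.le) (hV j))
  have n2 := abs_le.1 (near hA hc hβ hb (w := sv fun j => W j + θ⁻¹ * V j) (by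
    rw [tv_sv fun j _ _ => hWV j, e2]
    exact h2))
  rw [tv_sv fun j _ _ => hW j] at n1
  rw [tv_sv fun j _ _ => hWV j, e2] at n2
  have n1' : G n J c B W ≤ A + n / β / 2 * sm J W + E := by
    have := n1.2
    unfold G
    linarith
  have n2' : A + n / β / 2 * (sm J W + Vs) - E ≤ G n J c B (fun j => W j + θ⁻¹ * V j) := by
    have := n2.1
    unfold G
    linarith
  have e3 : sm J V = θ * Vs := by rw [hθ, div_mul_cancel₀ _ hVs.ne']
  rw [← hθ]
  have h4 : θ * (n / β / 2 * Vs - 2 * E) ≤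
      θ * (G n J c B (fun j => W j + θ⁻¹ * V j) - G n J c B W) :=
    mul_le_mul_of_nonneg_left (by linarith) hθ0.le
  rw [e3]
  nlinarith [h4, h3]

/-! ### the overlap at the level `J - 1` -/

/-- raising the last exponent -/
lemma ex2_upd (hc : Ex2 J c y Y) {ρ : ℝ} (hρ : 0 ≤ ρ) (h : c J + ρ ≤ Y) :
    Ex2 J (Function.update c J (c J + ρ)) y Y where
  em := by
    have hJ := hc.K1
    refine ⟨?_, ?_, fun l hl => ?_, ?_⟩
    · rw [Function.update_of_ne (by omega)]
      exact hc.em.m0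
    · rw [Function.update_of_ne (by omega)]
      exact hc.em.mK
    · by_cases h1 : l = J
      · subst h1
        rw [Function.update_self, Function.update_of_ne (by omega), hc.em.mK]
        exact h.trans hc.Y1
      · rw [Function.update_of_ne h1]
        by_cases h2 : l + 1 = J
        · rw [h2, Function.update_self]
          have := hc.em.mono l hl
          rw [h2] at this
          linarith
        · rw [Function.update_of_ne h2]
          exact hc.em.mono l hl
    · by_cases h1 : 1 = J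
      · rw [← h1, Function.update_self]
        have := hc.em.pos
        linarith
      · rw [Function.update_of_ne h1]
        exact hc.em.pos
  K1 := hc.K1
  y0 := hc.y0
  Y1 := hc.Y1
  ge := by
    by_cases h1 : 1 = J
    · rw [← h1, Function.update_self]
      have := hc.ge
      linarith
    · rw [Function.update_of_ne h1]
      exact hc.ge
  le := by
    rw [Function.update_self]
    exact h

/-- **The mean overlap at the level `J - 1`.** -/
theorem rq_le (hn : 0 < n) (hA : Ap n β y Y V1 A E) (hc : Ex2 J c y Y) (hβ : 0 ≤ β) (hB : Na J B)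
    (hb : tv J B = β ^ 2 / n) {ρ : ℝ} (hρ : 0 < ρ) (h : c J + ρ ≤ Y) (hBJ : 0 < B J)
    {ω : ℕ → ℝ} (hω : Na J ω) (hV : tv J ω ≤ V1) :
    Rq n J c B ω (J - 1) ≤ √(1 / n + 8 * E / (n ^ 2 * ρ * B J ^ 2)) := by
  have hJ := hc.K1
  have hc' := ex2_upd hc hρ.le h
  have hn' : (0 : ℝ) < n := Nat.cast_pos.2 hn
  refine (Rq_le_sqrt hn hc.em (by omega)).trans (Real.sqrt_le_sqrt ?_)
  have h1 := Tq_up (n := n) (b := B) (w := ω) (l := J - 1) (δ := ρ) (B := B J ^ 2) hn hc.em hc'.em
    hB hω (fun j h1 h2 => by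
      by_cases hj : j = J
      · subst hj
        rw [Function.update_self]
        linarith
      · rw [Function.update_of_ne hj]) (by omega) hρ (by positivity) (fun j h1 h2 => by
      have : j = J := by omega
      subst this
      rw [Function.update_self]
      linarith) (by
      rw [show J - 1 + 1 = J by omega, Finset.sum_Ico_succ_top le_rfl, Finset.Ico_self,
        Finset.sum_empty, zero_add])
  refine h1.trans ?_
  have n1 := abs_le.1 (near hA hc hβ hb hV)
  have n2 := abs_le.1 (near hA hc' hβ hb hV)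
  have h2 : (skS n J (Function.update c J (c J + ρ)) B ω).fe - (skS n J c B ω).fe ≤ 2 * E := by
    linarith [n1.1, n2.2]
  have h3 : 4 * ((skS n J (Function.update c J (c J + ρ)) B ω).fe - (skS n J c B ω).fe) /
      (n ^ 2 * ρ * B J ^ 2) ≤ 8 * E / (n ^ 2 * ρ * B J ^ 2) :=
    div_le_div_of_nonneg_right (by linarith) (by positivity)
  linarith

end Vale.Agent.P146.H295
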